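import Vale.Agent.P361.Def2

namespace Vale.Agent.P361

open Matrix NormedSpace Filter Topology

variable {V : Type} [Fintype V] [DecidableEq V] {n : ℕ}

/-- a one-site matrix acting at the site `x` -/
noncomputable def Alg_em (x : V) (m : Matrix (Fin (n + 1)) (Fin (n + 1)) ℝ) :
    Matrix (V → Fin (n + 1)) (V → Fin (n + 1)) ℝ :=
  of fun σ τ => if ∀ z, z ≠ x → σ z = τ z then m (σ x) (τ x) else 0

noncomputable def Alg_l (n : ℕ) : Matrix (Fin (n + 1)) (Fin (n + 1)) ℝ :=
  of fun i j => if i.val = j.val + 1 then amp n i else 0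

theorem Alg_low (x : V) : low n x = Alg_em x (Alg_l n) := by
  ext σ τ
  simp only [low, Alg_em, Alg_l, of_apply, ite_and]

theorem Alg_T (x : V) (m : Matrix (Fin (n + 1)) (Fin (n + 1)) ℝ) :
    (Alg_em x m)ᵀ = Alg_em x mᵀ := by
  ext σ τ
  simp only [Alg_em, of_apply, transpose_apply, eq_comm (a := σ _)]

theorem Alg_mul (x : V) (m : Matrix (Fin (n + 1)) (Fin (n + 1)) ℝ)
    (B : Matrix (V → Fin (n + 1)) (V → Fin (n + 1)) ℝ) (σ τ : V → Fin (n + 1)) :
    (Alg_em x m * B) σ τ = ∑ j, m (σ x) j * B (Function.update σ x j) τ := by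
  rw [mul_apply]
  symm
  refine Finset.sum_of_injOn (fun j => Function.update σ x j)
    (Function.update_injective σ x).injOn (fun _ _ => by simp) (fun ρ _ h => ?_) fun j _ => ?_
  · rw [Alg_em, of_apply, if_neg, zero_mul]
    intro h'
    refine h ⟨ρ x, by simp, funext fun z => ?_⟩
    by_cases hz : z = x
    · subst hz; simp
    · simp [Function.update_of_ne hz, h' z hz]
  · rw [Alg_em, of_apply, if_pos fun z hz => by rw [Function.update_of_ne hz],
      Function.update_self]

theorem Alg_same (x : V) (m m' : Matrix (Fin (n + 1)) (Fin (n + 1)) ℝ) :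
    Alg_em x m * Alg_em x m' = Alg_em x (m * m') := by
  ext σ τ
  rw [Alg_mul]
  simp only [Alg_em, of_apply, Function.update_self, mul_apply]
  by_cases h : ∀ z, z ≠ x → σ z = τ z
  · rw [if_pos h]
    refine Finset.sum_congr rfl fun j _ => ?_
    rw [if_pos fun z hz => by rw [Function.update_of_ne hz, h z hz]]
  · rw [if_neg h]
    refine Finset.sum_eq_zero fun j _ => ?_
    rw [if_neg fun h' => h fun z hz => by rw [← h' z hz, Function.update_of_ne hz], mul_zero]

theorem Alg_ne {x y : V} (h : x ≠ y) (m m' : Matrix (Fin (n + 1)) (Fin (n + 1)) ℝ)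
    (σ τ : V → Fin (n + 1)) : (Alg_em x m * Alg_em y m') σ τ =
      if ∀ z, z ≠ x → z ≠ y → σ z = τ z then m (σ x) (τ x) * m' (σ y) (τ y) else 0 := by
  rw [Alg_mul, Finset.sum_eq_single (τ x)]
  · simp only [Alg_em, of_apply, Function.update_of_ne h.symm]
    by_cases k : ∀ z, z ≠ x → z ≠ y → σ z = τ z
    · rw [if_pos k, if_pos]
      intro z hz
      by_cases hx : z = x
      · subst hx; simp
      · rw [Function.update_of_ne hx, k z hx hz]
    · rw [if_neg k, if_neg fun k' => k fun z hx hz => by
        rw [← k' z hz, Function.update_of_ne hx], mul_zero]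
  · intro j _ hj
    rw [Alg_em, of_apply, if_neg fun k => hj (by simpa using k x h), mul_zero]
  · simp

theorem Alg_comm {x y : V} (h : x ≠ y) (m m' : Matrix (Fin (n + 1)) (Fin (n + 1)) ℝ) :
    Alg_em x m * Alg_em y m' = Alg_em y m' * Alg_em x m := by
  ext σ τ
  rw [Alg_ne h, Alg_ne h.symm, mul_comm]
  exact if_congr (forall_congr' fun z => Imp.swap) rfl rfl

theorem Alg_diag (x : V) (d : Fin (n + 1) → ℝ) :
    Alg_em x (diagonal d) = diagonal fun σ => d (σ x) := by
  ext σ τ
  simp only [Alg_em, of_apply, diagonal_apply]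
  by_cases h : σ = τ
  · subst h; simp
  · rw [if_neg h]
    split_ifs with h1 h2
    · refine absurd (funext fun z => ?_) h
      by_cases hz : z = x
      · rw [hz, h2]
      · exact h1 z hz
    · rfl
    · rfl

theorem Alg_amp {j : ℕ} (h : j ≤ n + 1) : amp n j * amp n j = j * ((n : ℝ) + 1 - j) := by
  have : (j : ℝ) ≤ n + 1 := by exact_mod_cast h
  exact Real.mul_self_sqrt (mul_nonneg (Nat.cast_nonneg _) (sub_nonneg.2 this))

theorem Alg_llT : Alg_l n * (Alg_l n)ᵀ =
    diagonal fun i : Fin (n + 1) => (i.val : ℝ) * (n + 1 - i.val) := by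
  ext i k
  simp only [mul_apply, Alg_l, of_apply, transpose_apply, diagonal_apply]
  split_ifs with h
  · subst h
    rcases Nat.eq_zero_or_pos i.val with h0 | h0
    · simp [h0]
    · rw [Finset.sum_eq_single ⟨i.val - 1, by omega⟩, if_pos (by simp only; omega),
        Alg_amp i.2.le]
      · intro j _ hj
        rw [if_neg fun h => hj (Fin.ext (by simp only; omega)), mul_zero]
      · simp
  · refine Finset.sum_eq_zero fun j _ => ?_
    split_ifs with h1 h2
    · exact absurd (Fin.ext (h1.trans h2.symm)) h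
    all_goals simp

theorem Alg_lTl : (Alg_l n)ᵀ * Alg_l n =
    diagonal fun i : Fin (n + 1) => ((i.val : ℝ) + 1) * (n - i.val) := by
  ext i k
  simp only [mul_apply, Alg_l, of_apply, transpose_apply, diagonal_apply]
  split_ifs with h
  · subst h
    rcases (Nat.lt_succ_iff.1 i.2).eq_or_lt with h0 | h0
    · rw [Finset.sum_eq_zero, h0, sub_self, mul_zero]
      intro j _
      rw [if_neg (by omega), mul_zero]
    · rw [Finset.sum_eq_single ⟨i.val + 1, by omega⟩, if_pos rfl, Alg_amp (by simp only; omega)]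
      · push_cast
        ring
      · intro j _ hj
        rw [if_neg fun h => hj (Fin.ext h), mul_zero]
      · simp
  · refine Finset.sum_eq_zero fun j _ => ?_
    split_ifs with h1 h2
    · exact absurd (Fin.ext (by omega)) h
    all_goals simp

theorem low_hop {x y : V} (h : x ≠ y) : low n x * (low n y)ᵀ = hop n x y := by
  ext σ τ
  rw [Alg_low, Alg_low, Alg_T, Alg_ne h]
  simp only [hop, Alg_l, of_apply, transpose_apply, ite_and]
  split_ifs <;> simp

theorem low_hop' {x y : V} (h : x ≠ y) : (low n y)ᵀ * low n x = hop n x y := by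
  rw [← low_hop h, Alg_low, Alg_low, Alg_T, Alg_comm h]

theorem low_comm (x y : V) : low n x * low n y = low n y * low n x := by
  by_cases h : x = y
  · rw [h]
  · rw [Alg_low, Alg_low, Alg_comm h]

theorem low_lowT (x : V) : low n x * (low n x)ᵀ =
    diagonal fun σ => ((σ x).val : ℝ) * (n + 1 - (σ x).val) := by
  rw [Alg_low, Alg_T, Alg_same, Alg_llT, Alg_diag]

theorem low_ccr (x : V) : (low n x)ᵀ * low n x = low n x * (low n x)ᵀ + (2 : ℝ) • zed n x := by
  rw [low_lowT, Alg_low, Alg_T, Alg_same, Alg_lTl, Alg_diag, zed, ← diagonal_smul, diagonal_add]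
  congr 1
  funext σ
  simp only [Pi.smul_apply, smul_eq_mul]
  ring

theorem zed_low (x : V) : zed n x * low n x = low n x * zed n x - low n x := by
  ext σ τ
  simp only [zed, diagonal_mul, mul_diagonal, Matrix.sub_apply, low, of_apply]
  split_ifs with h
  · rw [h.2]
    push_cast
    ring
  · simp

theorem zed_low_ne {x y : V} (h : x ≠ y) : zed n y * low n x = low n x * zed n y := by
  ext σ τ
  simp only [zed, diagonal_mul, mul_diagonal, low, of_apply]
  split_ifs with k
  · rw [k.1 y h.symm, mul_comm]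
  · simp

theorem num_low (μ : ℝ) (x : V) : (diagonal fun σ => μ * num σ) * low n x =
    low n x * (diagonal fun σ => μ * num σ) + μ • low n x := by
  ext σ τ
  simp only [diagonal_mul, mul_diagonal, Matrix.add_apply, Matrix.smul_apply, smul_eq_mul, low,
    of_apply]
  split_ifs with k
  · have e : num σ = num τ + 1 := by
      unfold num
      rw [← Finset.add_sum_erase _ _ (Finset.mem_univ x),
        ← Finset.add_sum_erase _ _ (Finset.mem_univ x), k.2,
        Finset.sum_congr rfl fun z hz => congrArg Fin.val (k.1 z (Finset.ne_of_mem_erase hz))]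
      ring
    rw [e]
    push_cast
    ring
  · simp

theorem gen_eq (x y : V) : gen n x y = zed n x * zed n y +
    (1 / 2 : ℝ) • (hop n x y + hop n y x) - ((n : ℝ) ^ 2 / 4) • (1 : Matrix _ _ ℝ) := by
  rw [gen, zed, zed, diagonal_mul_diagonal]
  ext σ τ
  simp only [Matrix.sub_apply, Matrix.add_apply, Matrix.smul_apply, smul_eq_mul, diagonal_apply,
    Matrix.one_apply]
  split_ifs <;> ring

end Vale.Agent.P361
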