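import Vale.Agent.P361.Defs

namespace Vale.Agent.P361

open Matrix NormedSpace Filter Topology

variable {V : Type} [Fintype V] [DecidableEq V] {n : ℕ}

theorem Bond_mul {F : Type} [Fintype F] [DecidableEq F] {x y : V} (h : x ≠ y) (A B : Matrix F F ℂ)
    (σ τ : V → F) : (site x A * site y B) σ τ =
      if ∀ z, z ≠ x → z ≠ y → σ z = τ z then A (σ x) (τ x) * B (σ y) (τ y) else 0 := by
  rw [Matrix.mul_apply, Finset.sum_eq_single (Function.update σ x (τ x))]
  · simp only [site, of_apply]
    rw [if_pos fun z hz => (Function.update_of_ne hz _ _).symm, Function.update_self,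
      Function.update_of_ne h.symm, mul_ite, mul_zero]
    refine if_congr ⟨fun H z a b => ?_, fun H z b => ?_⟩ rfl rfl
    · rw [← H z b, Function.update_of_ne a]
    · by_cases a : z = x
      · rw [a, Function.update_self]
      · rw [Function.update_of_ne a, H z a b]
  · intro ρ _ hρ
    simp only [site, of_apply]
    split_ifs with a b
    · refine absurd (funext fun z => ?_) hρ
      by_cases e : z = x
      · rw [e, Function.update_self, b x h]
      · rw [Function.update_of_ne e, a z e]
    all_goals simp
  · simp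

theorem Bond_sp (i j : Fin (n + 1)) :
    sp n i j = ((if j.val = i.val + 1 then amp n j else 0 : ℝ) : ℂ) := by
  simp only [sp, of_apply, amp]
  split_ifs <;> simp

theorem Bond_sum (i j k l : Fin (n + 1)) : ∑ a, spin n a i j * spin n a k l =
    (((1 / 2 : ℝ) * ((if i.val = j.val + 1 then amp n i else 0) *
      (if l.val = k.val + 1 then amp n l else 0) + (if k.val = l.val + 1 then amp n k else 0) *
      (if j.val = i.val + 1 then amp n j else 0)) +
      (if i = j then (n : ℝ) / 2 - i.val else 0) * (if k = l then (n : ℝ) / 2 - k.val else 0) : ℝ) : ℂ) := by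
  have e3 : ∀ i j : Fin (n + 1), spin n 2 i j = ((if i = j then (n : ℝ) / 2 - i.val else 0 : ℝ) : ℂ) := by
    intro i j
    show diagonal (fun i : Fin (n + 1) => (n : ℂ) / 2 - i.val) i j = _
    rw [diagonal_apply]
    split_ifs <;> simp
  have e1 : ∀ i j : Fin (n + 1), spin n 0 i j = (1 / 2 : ℂ) * (sp n i j + sp n j i) := by
    intro i j
    show (1 / 2 : ℂ) * (sp n i j + star (sp n j i)) = _
    rw [Bond_sp j i, Complex.star_def, Complex.conj_ofReal]
  have e2 : ∀ i j : Fin (n + 1), spin n 1 i j = (1 / (2 * Complex.I)) * (sp n i j - sp n j i) := by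
    intro i j
    show (1 / (2 * Complex.I)) * (sp n i j - star (sp n j i)) = _
    rw [Bond_sp j i, Complex.star_def, Complex.conj_ofReal]
  have hI : (1 / (2 * Complex.I)) ^ 2 = -(1 / 4 : ℂ) := by
    rw [div_pow, mul_pow, Complex.I_sq]
    norm_num
  rw [Fin.sum_univ_three, e1, e1, e2, e2, e3, e3]
  simp only [Complex.ofReal_add, Complex.ofReal_mul, ← Bond_sp]
  push_cast
  linear_combination (sp n i j - sp n j i) * (sp n k l - sp n l k) * hI

theorem bond_eq {x y : V} (h : x ≠ y) : ∑ a, site x (spin n a) * site y (spin n a) =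
    (gen n x y + ((n : ℝ) ^ 2 / 4) • (1 : Matrix _ _ ℝ)).map (fun r : ℝ => (r : ℂ)) := by
  ext σ τ
  rw [Matrix.sum_apply, map_apply]
  simp only [Bond_mul h]
  by_cases c : ∀ z, z ≠ x → z ≠ y → σ z = τ z
  · have c' : ∀ z, z ≠ y → z ≠ x → σ z = τ z := fun z a b => c z b a
    simp only [if_pos c]
    rw [Bond_sum]
    congr 1
    have e : σ = τ ↔ σ x = τ x ∧ σ y = τ y := ⟨fun e => by simp [e], fun e => funext fun z => by
      by_cases a : z = x
      · rw [a, e.1]
      by_cases b : z = y
      · rw [b, e.2]
      exact c z a b⟩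
    simp only [gen, hop, Matrix.add_apply, Matrix.sub_apply, Matrix.smul_apply, of_apply,
      diagonal_apply, one_apply, smul_eq_mul, eq_true c, eq_true c', true_and, e, ite_and, ite_mul,
      mul_ite, zero_mul, mul_zero]
    split_ifs <;> ring
  · have c' : ¬∀ z, z ≠ y → z ≠ x → σ z = τ z := fun H => c fun z a b => H z b a
    have e : σ ≠ τ := fun e => c fun z _ _ => by rw [e]
    simp only [gen, hop, Matrix.add_apply, Matrix.sub_apply, Matrix.smul_apply, of_apply,
      diagonal_apply, one_apply, smul_eq_mul, eq_false c, eq_false c', false_and, if_neg e, if_false]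
    simp

theorem mag_eq : ∑ x : V, site x (spin n 2) =
    (diagonal fun σ : V → Fin (n + 1) => (Fintype.card V : ℝ) * n / 2 - num σ).map
      (fun r : ℝ => (r : ℂ)) := by
  ext σ τ
  have e3 : ∀ i j : Fin (n + 1), spin n 2 i j = if i = j then (n : ℂ) / 2 - i.val else 0 :=
    fun i j => diagonal_apply _ i j
  rw [Matrix.sum_apply, map_apply, diagonal_apply]
  simp only [site, of_apply, e3]
  by_cases e : σ = τ
  · subst e
    simp [num, Finset.sum_sub_distrib]
    ring
  · rw [if_neg e, Complex.ofReal_zero]
    refine Finset.sum_eq_zero fun x _ => ?_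
    split_ifs with a b
    · refine absurd (funext fun z => ?_) e
      by_cases c : z = x
      · rw [c, b]
      · exact a z c
    all_goals rfl

end Vale.Agent.P361
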