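import Vale.Agent.P361.Alg

namespace Vale.Agent.P361

open Matrix NormedSpace Filter Topology

variable {V : Type} [Fintype V] [DecidableEq V] {n : ℕ}

lemma Dbl_sum {R : Type} [Ring R] [Algebra ℝ R] (u : V → ℝ) (M : V → R) (G : R) :
    (∑ w, u w • M w) * G - G * ∑ w, u w • M w = ∑ w, u w • (M w * G - G * M w) := by
  simp only [Finset.sum_mul, Finset.mul_sum, smul_mul_assoc, mul_smul_comm, smul_sub,
    Finset.sum_sub_distrib]

lemma Dbl_two {R : Type} [Ring R] [Algebra ℝ R] (u : V → ℝ) (M : V → R) (G : R) {x y : V}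
    (h : x ≠ y) (h0 : ∀ w, w ≠ x → w ≠ y → Commute (M w) G) :
    (∑ w, u w • M w) * G - G * ∑ w, u w • M w =
      u x • (M x * G - G * M x) + u y • (M y * G - G * M y) := by
  rw [Dbl_sum]
  exact Fintype.sum_eq_add x y h fun w hw => by rw [(h0 w hw.1 hw.2).eq, sub_self, smul_zero]

lemma Dbl_T (u : V → ℝ) : (AA n u)ᵀ = ∑ x, u x • (low n x)ᵀ := by
  simp only [AA, transpose_sum, transpose_smul]

lemma Dbl_zT (x : V) : (zed n x)ᵀ = zed n x := diagonal_transpose _

lemma Dbl_zz (x y : V) : zed n x * zed n y = zed n y * zed n x := by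
  simp only [zed, diagonal_mul_diagonal, mul_comm]

lemma Dbl_LP {x y : V} (h : x ≠ y) : Commute (low n x) (low n y)ᵀ :=
  (low_hop h).trans (low_hop' h).symm

lemma Dbl_LZ {x y : V} (h : x ≠ y) : Commute (low n x) (zed n y) := (zed_low_ne h).symm

lemma Dbl_PZ {x y : V} (h : x ≠ y) : Commute (low n x)ᵀ (zed n y) := by
  have := congrArg transpose (zed_low_ne (n := n) h)
  rwa [transpose_mul, transpose_mul, Dbl_zT] at this

lemma Dbl_PZ' (x : V) : (low n x)ᵀ * zed n x = zed n x * (low n x)ᵀ - (low n x)ᵀ := by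
  have := congrArg transpose (zed_low (n := n) x)
  rwa [transpose_sub, transpose_mul, transpose_mul, Dbl_zT] at this

lemma Dbl_gen_symm (x y : V) : gen n x y = gen n y x := by
  rw [gen_eq, gen_eq, Dbl_zz x y, add_comm (hop n x y)]

lemma Dbl_one {x y : V} (h : x ≠ y) : low n x * gen n x y - gen n x y * low n x =
    low n x * zed n y - low n y * zed n x := by
  have e1 : zed n x * zed n y * low n x = low n x * (zed n x * zed n y) - low n x * zed n y := by
    rw [mul_assoc, zed_low_ne h, ← mul_assoc, zed_low, sub_mul, mul_assoc]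
  have e2 : hop n x y * low n x = low n x * hop n x y := by
    rw [← low_hop h, mul_assoc, low_hop' h, low_hop h]
  have e3 : hop n y x * low n x = low n x * hop n y x + (2 : ℝ) • (low n y * zed n x) := by
    rw [← low_hop h.symm, mul_assoc, low_ccr, mul_add, mul_smul_comm, ← mul_assoc, ← mul_assoc,
      low_comm y x]
  rw [gen_eq]
  simp only [mul_sub, sub_mul, mul_add, add_mul, smul_mul_assoc, mul_smul_comm, mul_one, one_mul,
    e1, e2, e3]
  module

lemma Dbl_sec {x y : V} (h : x ≠ y) :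
    (low n x)ᵀ * (low n x * zed n y - low n y * zed n x) -
      (low n x * zed n y - low n y * zed n x) * (low n x)ᵀ =
      hop n y x + (2 : ℝ) • (zed n x * zed n y) := by
  have e1 : (low n x)ᵀ * (low n x * zed n y) =
      low n x * zed n y * (low n x)ᵀ + (2 : ℝ) • (zed n x * zed n y) := by
    rw [← mul_assoc, low_ccr, add_mul, smul_mul_assoc, mul_assoc, (Dbl_PZ h).eq, mul_assoc]
  have e2 : (low n x)ᵀ * (low n y * zed n x) = low n y * zed n x * (low n x)ᵀ - hop n y x := by
    rw [← mul_assoc, ← (Dbl_LP h.symm).eq, mul_assoc, Dbl_PZ', mul_sub, low_hop h.symm, mul_assoc]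
  rw [mul_sub, sub_mul, e1, e2]
  abel

theorem dc_gen {x y : V} (h : x ≠ y) (u : V → ℝ) : dc (gen n x y) (AA n u) =
    (u x - u y) • (u x • (hop n y x + (2 : ℝ) • (zed n x * zed n y)) -
      u y • (hop n x y + (2 : ℝ) • (zed n x * zed n y))) := by
  have e1 : AA n u * gen n x y - gen n x y * AA n u =
      (u x - u y) • (low n x * zed n y - low n y * zed n x) := by
    rw [AA, Dbl_two u _ _ h, Dbl_one h, Dbl_gen_symm x y, Dbl_one h.symm]
    · module
    · intro w hx hy
      rw [gen_eq, ← low_hop h, ← low_hop h.symm]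
      exact (((Dbl_LZ hx).mul_right (Dbl_LZ hy)).add_right
        (((Commute.mul_right (low_comm w x) (Dbl_LP hy)).add_right
          (Commute.mul_right (low_comm w y) (Dbl_LP hx))).smul_right _)).sub_right
        ((Commute.one_right _).smul_right _)
  have e2 := Dbl_sec (n := n) h.symm
  rw [← neg_sub (low n x * zed n y), mul_neg, neg_mul, Dbl_zz y x] at e2
  rw [dc, e1, mul_smul_comm, smul_mul_assoc, ← smul_sub, Dbl_T, Dbl_two u _ _ h, Dbl_sec h, ← e2]
  · module
  · intro w hx hy
    exact ((Dbl_LP hx.symm).symm.mul_right (Dbl_PZ hy)).sub_right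
      ((Dbl_LP hy.symm).symm.mul_right (Dbl_PZ hx))

theorem dc_num (μ : ℝ) (u : V → ℝ) : dc (diagonal fun σ => μ * num σ) (AA n u) =
    -μ • ((AA n u)ᵀ * AA n u - AA n u * (AA n u)ᵀ) := by
  have e1 : AA n u * (diagonal fun σ => μ * num σ) - (diagonal fun σ => μ * num σ) * AA n u =
      -μ • AA n u := by
    rw [AA, Dbl_sum, Finset.smul_sum]
    refine Finset.sum_congr rfl fun w _ => ?_
    rw [num_low]
    module
  rw [dc, e1, mul_smul_comm, smul_mul_assoc, smul_sub]

theorem AA_ccr (u : V → ℝ) : (AA n u)ᵀ * AA n u - AA n u * (AA n u)ᵀ =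
    ∑ x, (2 * u x ^ 2) • zed n x := by
  rw [Dbl_T, Dbl_sum]
  refine Finset.sum_congr rfl fun x _ => ?_
  rw [← neg_sub, AA, Dbl_sum, Fintype.sum_eq_single x fun w hw => by
    rw [(Dbl_LP hw).eq, sub_self, smul_zero], low_ccr]
  module

end Vale.Agent.P361
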