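import Vale.Agent.P361.Defs

/-! Magnon creation operators. -/

namespace Vale.Agent.P361

open Matrix

variable {V : Type} [Fintype V] [DecidableEq V]

/-- `S⁻` at the site `x` -/
noncomputable def low (n : ℕ) (x : V) : Matrix (V → Fin (n + 1)) (V → Fin (n + 1)) ℝ :=
  of fun σ τ => if (∀ z, z ≠ x → σ z = τ z) ∧ (σ x).val = (τ x).val + 1 then amp n (σ x) else 0

/-- `S³` at the site `x` -/
noncomputable def zed (n : ℕ) (x : V) : Matrix (V → Fin (n + 1)) (V → Fin (n + 1)) ℝ :=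
  diagonal fun σ => (n : ℝ) / 2 - (σ x).val

noncomputable def AA (n : ℕ) (u : V → ℝ) : Matrix (V → Fin (n + 1)) (V → Fin (n + 1)) ℝ :=
  ∑ x, u x • low n x

noncomputable def XX (n : ℕ) (E : Finset (V × V)) (β μ : ℝ) :
    Matrix (V → Fin (n + 1)) (V → Fin (n + 1)) ℝ := β • LL n E + diagonal fun σ => μ * num σ

/-- unnormalised Gibbs expectation -/
noncomputable def TT {ι : Type} [Fintype ι] [DecidableEq ι] (X B : Matrix ι ι ℝ) : ℝ :=
  trace (NormedSpace.exp X * B)

/-- double commutator `[Aᵀ, [-X, A]]` -/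
def dc {ι : Type} [Fintype ι] (X A : Matrix ι ι ℝ) : Matrix ι ι ℝ :=
  Aᵀ * (A * X - X * A) - (A * X - X * A) * Aᵀ

/-- magnetization per site in the box -/
noncomputable def magN (n N : ℕ) (β h : ℝ) : ℝ :=
  (∑ x, TT (XX n (edges N) β (-(β * h))) (zed n x)) /
    ((2 * N + 1) ^ 3 * TT (XX n (edges N) β (-(β * h))) 1)

/-- one component of the wave vector -/
noncomputable def wv (N : ℕ) (r : Fin (2 * N + 1)) : ℝ :=
  2 * Real.pi * ((r.val : ℝ) - N) / (2 * N + 1)

end Vale.Agent.P361
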