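import Vale.Agent.P361.St

/-! The real form of the Hamiltonian. -/

namespace Vale.Agent.P361

open Matrix

variable {V : Type} [Fintype V] [DecidableEq V]

/-- matrix elements of the raising matrix -/
noncomputable def amp (n j : ℕ) : ℝ := Real.sqrt (j * ((n : ℝ) + 1 - j))

/-- hopping of one magnon -/
noncomputable def hop (n : ℕ) (x y : V) : Matrix (V → Fin (n + 1)) (V → Fin (n + 1)) ℝ :=
  of fun σ τ => if (∀ z, z ≠ x → z ≠ y → σ z = τ z) ∧ (σ x).val = (τ x).val + 1 ∧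
    (τ y).val = (σ y).val + 1 then amp n (σ x) * amp n (τ y) else 0

/-- `S_x · S_y - S ^ 2` -/
noncomputable def gen (n : ℕ) (x y : V) : Matrix (V → Fin (n + 1)) (V → Fin (n + 1)) ℝ :=
  (1 / 2 : ℝ) • (hop n x y + hop n y x) - diagonal fun σ =>
    (((σ x).val : ℝ) * (n - (σ y).val) + ((σ y).val : ℝ) * (n - (σ x).val)) / 2

noncomputable def LL (n : ℕ) (E : Finset (V × V)) :
    Matrix (V → Fin (n + 1)) (V → Fin (n + 1)) ℝ := ∑ e ∈ E, gen n e.1 e.2

/-- number of magnons -/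
def num {n : ℕ} (σ : V → Fin (n + 1)) : ℕ := ∑ x, (σ x).val

noncomputable def ZZ (n : ℕ) (E : Finset (V × V)) (β z : ℝ) : ℝ :=
  ∑ σ : V → Fin (n + 1), z ^ num σ * NormedSpace.exp (β • LL n E) σ σ

/-- graph Laplacian -/
def lap (E : Finset (V × V)) (u : V → ℝ) (x : V) : ℝ :=
  ∑ e ∈ E, ((if e.1 = x then u e.2 - u x else 0) + if e.2 = x then u e.1 - u x else 0)

/-- no loops -/
def Irr (E : Finset (V × V)) : Prop := ∀ e ∈ E, e.1 ≠ e.2

/-- a heat kernel that is small and block diagonal at the time `t` -/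
structure Ker {Q : Type} [DecidableEq Q] (E : Finset (V × V)) (κ t ε : ℝ) (b : V → Q)
    (q : ℝ → V → V → ℝ) : Prop where
  nn : ∀ s x y, 0 ≤ s → 0 ≤ q s x y
  one : ∀ x, q 0 x x = 1
  der : ∀ s x y, HasDerivAt (fun s => q s x y) (κ * lap E (fun x => q s x y) x) s
  bd : ∀ x y, q t x y ≤ if b x = b y then ε else 0

/-- a trial function with one bump in each block of `B` -/
structure Trial {Q : Type} [DecidableEq Q] (E : Finset (V × V)) (lam : ℝ) (b : V → Q)
    (B : Finset Q) (ψ : V → ℝ) : Prop where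
  nn : ∀ x, 0 ≤ ψ x
  ex : ∀ j ∈ B, ∃ x, b x = j ∧ 0 < ψ x
  sub : ∀ x, b x ∈ B → 0 < ψ x → -lam * ψ x ≤ lap E (fun y => if b y = b x then ψ y else 0) x

theorem irr_edges (N : ℕ) : Irr (edges N) := by
  rintro ⟨x, y⟩ he h
  obtain ⟨i, hi, -⟩ := (Finset.mem_filter.1 he).2
  simp only at h hi
  rw [h] at hi
  omega

end Vale.Agent.P361
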