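import Vale.Agent.P361.Spec
import Vale.Agent.P361.Def2

namespace Vale.Agent.P361

open Matrix NormedSpace Filter Topology

variable {ι κ : Type} [Fintype ι] [DecidableEq ι] [Fintype κ]

theorem Eeb_spec {X : Matrix ι ι ℝ} (hX : X.IsSymm) : ∃ (U : Matrix ι ι ℝ) (l : ι → ℝ),
    Uᵀ * U = 1 ∧ U * Uᵀ = 1 ∧ X = U * diagonal l * Uᵀ ∧
      ∀ B : Matrix ι ι ℝ, TT X B = ∑ i, Real.exp (l i) * (Uᵀ * B * U) i i := by
  obtain ⟨U, l, h1, h2, h3, h4⟩ := spec hX
  refine ⟨U, l, h1, h2, h3, fun B => ?_⟩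
  have h5 := h4 1
  simp only [one_smul, one_mul] at h5
  rw [TT, h5, Matrix.mul_assoc, Matrix.mul_assoc, trace_mul_comm, Matrix.mul_assoc]
  simp only [trace, diag_apply, diagonal_mul]

theorem TT_nonpos {X G : Matrix ι ι ℝ} (hX : X.IsSymm) (h : ∀ f, f ⬝ᵥ G *ᵥ f ≤ 0) : TT X G ≤ 0 := by
  obtain ⟨U, l, -, -, -, h4⟩ := Eeb_spec hX
  rw [h4]
  refine Finset.sum_nonpos fun i _ => mul_nonpos_of_nonneg_of_nonpos (Real.exp_pos _).le ?_
  have := h (Uᵀ i)
  rw [Matrix.mul_assoc]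
  exact this

theorem TT_transpose {X : Matrix ι ι ℝ} (hX : X.IsSymm) (B : Matrix ι ι ℝ) :
    TT X Bᵀ = TT X B := by
  obtain ⟨U, l, -, -, -, h4⟩ := Eeb_spec hX
  rw [h4, h4]
  refine Finset.sum_congr rfl fun i _ => ?_
  have : Uᵀ * Bᵀ * U = (Uᵀ * B * U)ᵀ := by
    rw [transpose_mul, transpose_mul, transpose_transpose, Matrix.mul_assoc]
  rw [this, transpose_apply]

theorem TT_one_pos [Nonempty ι] {X : Matrix ι ι ℝ} (hX : X.IsSymm) : 0 < TT X 1 := by
  obtain ⟨U, l, h1, -, -, h4⟩ := Eeb_spec hX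
  rw [h4, Matrix.mul_one, h1]
  refine Finset.sum_pos (fun i _ => ?_) Finset.univ_nonempty
  rw [one_apply_eq, mul_one]
  exact Real.exp_pos _

theorem Eeb_pt (α β ρ : ℝ) :
    (Real.exp α - Real.exp β) * ρ + (Real.exp α - Real.exp β * Real.exp ρ) +
      (Real.exp β - Real.exp α * Real.exp (-ρ)) ≤ (Real.exp α - Real.exp β) * (α - β) := by
  have e1 : Real.exp β * Real.exp ρ = Real.exp α * Real.exp (-(α - β - ρ)) := by
    rw [← Real.exp_add, ← Real.exp_add]; congr 1; ring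
  have e2 : Real.exp α * Real.exp (-ρ) = Real.exp β * Real.exp (α - β - ρ) := by
    rw [← Real.exp_add, ← Real.exp_add]; congr 1; ring
  have i1 := mul_le_mul_of_nonneg_left (Real.add_one_le_exp (-(α - β - ρ))) (Real.exp_pos α).le
  have i2 := mul_le_mul_of_nonneg_left (Real.add_one_le_exp (α - β - ρ)) (Real.exp_pos β).le
  rw [e1, e2]
  nlinarith

theorem Eeb_scal {J : Type} [Fintype J] (w α β : J → ℝ) (hw : ∀ j, 0 ≤ w j) {y : ℝ}
    (h0 : ∑ j, w j * Real.exp (β j) < ∑ j, w j * Real.exp (α j))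
    (h : ∑ j, w j * ((Real.exp (α j) - Real.exp (β j)) * (α j - β j)) ≤
      (∑ j, w j * Real.exp (α j) - ∑ j, w j * Real.exp (β j)) * y) :
    ∑ j, w j * Real.exp (α j) ≤ (∑ j, w j * Real.exp (β j)) * Real.exp y := by
  have ha0 : 0 ≤ ∑ j, w j * Real.exp (β j) :=
    Finset.sum_nonneg fun j _ => mul_nonneg (hw j) (Real.exp_pos _).le
  have ha : 0 < ∑ j, w j * Real.exp (β j) := by
    refine ha0.lt_of_ne fun e => ?_
    have z := (Finset.sum_eq_zero_iff_of_nonneg
      fun j _ => mul_nonneg (hw j) (Real.exp_pos (β j)).le).1 e.symm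
    have z' : ∀ j, w j = 0 := fun j =>
      (mul_eq_zero.1 (z j (Finset.mem_univ j))).resolve_right (Real.exp_pos _).ne'
    simp [z'] at h0
  set a := ∑ j, w j * Real.exp (β j) with hadef
  set b := ∑ j, w j * Real.exp (α j) with hbdef
  have hb : 0 < b := ha.trans h0
  have e1 : Real.exp (Real.log (b / a)) = b / a := Real.exp_log (div_pos hb ha)
  have e2 : Real.exp (-Real.log (b / a)) = a / b := by rw [Real.exp_neg, e1, inv_div]
  have key : (b - a) * Real.log (b / a) + (b - a * (b / a)) + (a - b * (a / b)) ≤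
      ∑ j, w j * ((Real.exp (α j) - Real.exp (β j)) * (α j - β j)) := by
    have := Finset.sum_le_sum (s := Finset.univ) fun j _ =>
      mul_le_mul_of_nonneg_left (Eeb_pt (α j) (β j) (Real.log (b / a))) (hw j)
    refine le_trans (le_of_eq ?_) this
    rw [e1, e2]
    generalize Real.log (b / a) = ρ
    generalize b / a = r
    generalize a / b = r'
    rw [hadef, hbdef]
    simp only [sub_mul, Finset.sum_mul, ← Finset.sum_sub_distrib, ← Finset.sum_add_distrib]
    exact Finset.sum_congr rfl fun j _ => by ring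
  have e3 : a * (b / a) = b := by field_simp
  have e4 : b * (a / b) = a := by field_simp
  rw [e3, e4, sub_self, sub_self, add_zero, add_zero] at key
  have h5 : Real.log (b / a) ≤ y := le_of_mul_le_mul_left (key.trans h) (sub_pos.2 h0)
  have h6 := Real.exp_le_exp.2 h5
  rw [e1, div_le_iff₀ ha] at h6
  linarith

theorem eeb {X : Matrix ι ι ℝ} (hX : X.IsSymm) (A : κ → Matrix ι ι ℝ) {y : ℝ}
    (h0 : ∑ i, TT X (A i * (A i)ᵀ) < ∑ i, TT X ((A i)ᵀ * A i))
    (h : ∑ i, TT X (dc X (A i)) ≤ (∑ i, TT X ((A i)ᵀ * A i) - ∑ i, TT X (A i * (A i)ᵀ)) * y) :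
    ∑ i, TT X ((A i)ᵀ * A i) ≤ (∑ i, TT X (A i * (A i)ᵀ)) * Real.exp y := by
  obtain ⟨U, l, h1, h2, h3, h4⟩ := Eeb_spec hX
  have hm : ∀ P Q : Matrix ι ι ℝ, Uᵀ * (P * Q) * U = (Uᵀ * P * U) * (Uᵀ * Q * U) := by
    intro P Q
    simp only [Matrix.mul_assoc]
    rw [← Matrix.mul_assoc U Uᵀ, h2, Matrix.one_mul]
  have ht : ∀ P : Matrix ι ι ℝ, Uᵀ * Pᵀ * U = (Uᵀ * P * U)ᵀ := fun P => by
    rw [transpose_mul, transpose_mul, transpose_transpose, Matrix.mul_assoc]
  have hs : ∀ P Q : Matrix ι ι ℝ, Uᵀ * (P - Q) * U = Uᵀ * P * U - Uᵀ * Q * U := fun P Q => by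
    rw [Matrix.mul_sub, Matrix.sub_mul]
  have hd : Uᵀ * X * U = diagonal l := by
    rw [h3]
    simp only [Matrix.mul_assoc]
    rw [h1, Matrix.mul_one, ← Matrix.mul_assoc, h1, Matrix.one_mul]
  have a1 : ∀ P : Matrix ι ι ℝ, TT X (P * Pᵀ) =
      ∑ p, ∑ q, (Uᵀ * P * U) p q ^ 2 * Real.exp (l p) := fun P => by
    rw [h4, hm, ht]
    generalize Uᵀ * P * U = C
    refine Finset.sum_congr rfl fun p _ => ?_
    rw [mul_apply, Finset.mul_sum]
    exact Finset.sum_congr rfl fun q _ => by rw [transpose_apply]; ring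
  have a2 : ∀ P : Matrix ι ι ℝ, TT X (Pᵀ * P) =
      ∑ p, ∑ q, (Uᵀ * P * U) p q ^ 2 * Real.exp (l q) := fun P => by
    rw [h4, hm, ht, Finset.sum_comm]
    generalize Uᵀ * P * U = C
    refine Finset.sum_congr rfl fun p _ => ?_
    rw [mul_apply, Finset.mul_sum]
    exact Finset.sum_congr rfl fun q _ => by rw [transpose_apply]; ring
  have a3 : ∀ P : Matrix ι ι ℝ, TT X (dc X P) =
      ∑ p, ∑ q, (Uᵀ * P * U) p q ^ 2 *
        ((Real.exp (l q) - Real.exp (l p)) * (l q - l p)) := fun P => by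
    rw [h4, dc, hs, hm, hm, hs, hm, hm, ht, hd]
    generalize Uᵀ * P * U = C
    have hC : ∀ p q, (C * diagonal l - diagonal l * C) p q = C p q * (l q - l p) := fun p q => by
      rw [Matrix.sub_apply, mul_diagonal, diagonal_mul]; ring
    generalize C * diagonal l - diagonal l * C = M at hC
    have b1 : ∑ i, Real.exp (l i) * (Cᵀ * M) i i =
        ∑ p, ∑ q, C p q ^ 2 * (Real.exp (l q) * (l q - l p)) := by
      rw [Finset.sum_comm]
      refine Finset.sum_congr rfl fun p _ => ?_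
      rw [mul_apply, Finset.mul_sum]
      exact Finset.sum_congr rfl fun q _ => by rw [transpose_apply, hC]; ring
    have b2 : ∑ i, Real.exp (l i) * (M * Cᵀ) i i =
        ∑ p, ∑ q, C p q ^ 2 * (Real.exp (l p) * (l q - l p)) := by
      refine Finset.sum_congr rfl fun p _ => ?_
      rw [mul_apply, Finset.mul_sum]
      exact Finset.sum_congr rfl fun q _ => by rw [transpose_apply, hC]; ring
    simp only [Matrix.sub_apply, mul_sub (Real.exp _) ((Cᵀ * M) _ _), Finset.sum_sub_distrib]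
    rw [b1, b2, ← Finset.sum_sub_distrib]
    refine Finset.sum_congr rfl fun p _ => ?_
    rw [← Finset.sum_sub_distrib]
    exact Finset.sum_congr rfl fun q _ => by ring
  have := Eeb_scal (J := κ × ι × ι) (fun j => (Uᵀ * A j.1 * U) j.2.1 j.2.2 ^ 2)
    (fun j => l j.2.2) (fun j => l j.2.1) (fun j => sq_nonneg _) (y := y)
  simp only [Fintype.sum_prod_type] at this
  simp only [a1, a2, a3] at h0 h ⊢
  exact this h0 h

end Vale.Agent.P361
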