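import Vale.Agent.P361.Defs

namespace Vale.Agent.P361

open Matrix NormedSpace Filter Topology

variable {ι : Type} [Fintype ι] [DecidableEq ι]

open scoped Matrix.Norms.Operator in
theorem pos_sum (X : Matrix ι ι ℝ) (i j : ι) :
    HasSum (fun n : ℕ => ((n.factorial : ℝ)⁻¹) * (X ^ n) i j) (exp X i j) :=
  Pi.hasSum.1 (Pi.hasSum.1 (exp_series_hasSum_exp' (𝕂 := ℝ) X) i) j

theorem pos_diag (d : ι → ℝ) : exp (diagonal d) = diagonal fun i => Real.exp (d i) := by
  rw [Matrix.exp_diagonal, Pi.exp_def, Real.exp_eq_exp_ℝ]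

theorem pos_nn {X : Matrix ι ι ℝ} (h : ∀ i j, 0 ≤ X i j) (i j : ι) : 0 ≤ exp X i j := by
  have k : ∀ n i j, 0 ≤ (X ^ n) i j := fun n => by
    induction n with
    | zero => intro i j; rw [pow_zero, one_apply]; split_ifs <;> norm_num
    | succ n ih =>
      intro i j
      rw [pow_succ, mul_apply]
      exact Finset.sum_nonneg fun l _ => mul_nonneg (ih i l) (h l j)
  exact (pos_sum X i j).nonneg fun n => mul_nonneg (by positivity) (k n i j)

theorem exp_nn {X : Matrix ι ι ℝ} (h : ∀ i j, i ≠ j → 0 ≤ X i j) {t : ℝ} (ht : 0 ≤ t) (i j : ι) :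
    0 ≤ exp (t • X) i j := by
  obtain ⟨c, hc⟩ : ∃ c : ℝ, ∀ i, -(t * X i i) ≤ c :=
    ⟨∑ i, |t * X i i|, fun i => (neg_le_abs _).trans
      (Finset.single_le_sum (f := fun i => |t * X i i|) (fun _ _ => abs_nonneg _)
        (Finset.mem_univ i))⟩
  have e : t • X = (t • X + diagonal fun _ => c) + diagonal fun _ => -c := by
    rw [add_assoc, diagonal_add]
    simp
  have cm : Commute (t • X + diagonal fun _ => c) (diagonal fun _ => -c) :=
    (scalar_commute (-c) (fun _ => Commute.all _ _) _).symm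
  rw [e, Matrix.exp_add_of_commute _ _ cm, pos_diag, mul_diagonal]
  refine mul_nonneg (pos_nn (fun a b => ?_) i j) (Real.exp_pos _).le
  by_cases hab : a = b
  · subst hab
    simp only [Matrix.add_apply, Matrix.smul_apply, smul_eq_mul, diagonal_apply_eq]
    linarith [hc a]
  · simpa [diagonal_apply_ne _ hab] using mul_nonneg ht (h a b hab)

theorem pos_block {Q : Type} {X : Matrix ι ι ℝ} (b : ι → Q) (h : ∀ i j, b i ≠ b j → X i j = 0)
    {i j : ι} (hij : b i ≠ b j) : exp X i j = 0 := by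
  have k : ∀ n i j, b i ≠ b j → (X ^ n) i j = 0 := fun n => by
    induction n with
    | zero => exact fun i j hij => one_apply_ne fun e => hij (congrArg b e)
    | succ n ih =>
      intro i j hij
      rw [pow_succ, mul_apply]
      refine Finset.sum_eq_zero fun l _ => ?_
      by_cases e : b i = b l
      · rw [h l j (e ▸ hij), mul_zero]
      · rw [ih i l e, zero_mul]
  have := pos_sum X i j
  simp only [k _ i j hij, mul_zero] at this
  exact this.unique hasSum_zero

theorem exp_block {Q : Type} {X : Matrix ι ι ℝ} (b : ι → Q) (h : ∀ i j, b i ≠ b j → X i j = 0)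
    (t : ℝ) {i j : ι} (hij : b i ≠ b j) : exp (t • X) i j = 0 :=
  pos_block b (fun i j e => by rw [Matrix.smul_apply, h i j e, smul_zero]) hij

open scoped Matrix.Norms.Operator in
theorem pos_der (X : Matrix ι ι ℝ) (t : ℝ) (i j : ι) :
    HasDerivAt (fun s : ℝ => exp (s • X) i j) ((X * exp (t • X)) i j) t ∧
      HasDerivAt (fun s : ℝ => exp (s • X) i j) ((exp (t • X) * X) i j) t :=
  ⟨(LinearMap.toContinuousLinearMap (entryLinearMap ℝ ℝ i j)).hasFDerivAt.comp_hasDerivAt t
    (hasDerivAt_exp_smul_const' X t),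
    (LinearMap.toContinuousLinearMap (entryLinearMap ℝ ℝ i j)).hasFDerivAt.comp_hasDerivAt t
    (hasDerivAt_exp_smul_const X t)⟩

theorem exp_der (X : Matrix ι ι ℝ) (t : ℝ) (i j : ι) :
    HasDerivAt (fun s : ℝ => exp (s • X) i j) ((X * exp (t • X)) i j) t := (pos_der X t i j).1

theorem compare {X : Matrix ι ι ℝ} (h : ∀ i j, i ≠ j → 0 ≤ X i j) {t : ℝ} (ht : 0 ≤ t)
    (F F' : ℝ → ι → ℝ) (hF : ∀ s i, HasDerivAt (fun s => F s i) (F' s i) s)
    (hs : ∀ s i, 0 ≤ s → s ≤ t → (X *ᵥ F s) i ≤ F' s i) (i : ι) :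
    (exp (t • X) *ᵥ F 0) i ≤ F t i := by
  have hd : ∀ s, HasDerivAt (fun s => ∑ j, exp ((t - s) • X) i j * F s j)
      (∑ j, exp ((t - s) • X) i j * (F' s j - (X *ᵥ F s) j)) s := fun s => by
    have a := HasDerivAt.fun_sum (u := Finset.univ) fun j _ =>
      (((pos_der X (t - s) i j).2.comp s ((hasDerivAt_id s).const_sub t)).fun_mul (hF s j))
    have e : ∑ j, (exp ((t - s) • X) * X) i j * F s j =
        ∑ j, exp ((t - s) • X) i j * (X *ᵥ F s) j := by
      change ((exp ((t - s) • X) * X) *ᵥ F s) i = (exp ((t - s) • X) *ᵥ (X *ᵥ F s)) i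
      rw [mulVec_mulVec]
    refine a.congr_deriv ?_
    simp only [mul_sub, Finset.sum_sub_distrib, ← e, Finset.sum_add_distrib, mul_neg, mul_one,
      neg_mul, Finset.sum_neg_distrib, Function.comp_apply]
    ring
  have hm := monotoneOn_of_deriv_nonneg (convex_Icc 0 t)
    (fun s _ => (hd s).continuousAt.continuousWithinAt)
    (fun s _ => (hd s).differentiableAt.differentiableWithinAt) fun s hs' => by
      have k := interior_subset hs'
      rw [(hd s).deriv]
      exact Finset.sum_nonneg fun j _ => mul_nonneg (exp_nn h (sub_nonneg.2 k.2) i j)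
        (sub_nonneg.2 (hs s j k.1 k.2))
  have := hm ⟨le_rfl, ht⟩ ⟨ht, le_rfl⟩ ht
  simpa [one_apply, mulVec, dotProduct] using this

theorem tr_diag {X : Matrix ι ι ℝ} (d : ι → ℝ) (h : ∀ i j, d i ≠ d j → X i j = 0) :
    trace (exp (X + diagonal d)) = ∑ i, Real.exp (d i) * exp X i i := by
  have c : Commute X (diagonal d) := by
    ext i j
    rw [mul_diagonal, diagonal_mul]
    by_cases e : d i = d j
    · rw [e, mul_comm]
    · rw [h i j e, zero_mul, mul_zero]
  rw [Matrix.exp_add_of_commute _ _ c, pos_diag, trace]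
  exact Finset.sum_congr rfl fun i _ => by rw [diag_apply, mul_diagonal, mul_comm]

end Vale.Agent.P361
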