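import Vale.Agent.P361.Spec
import Vale.Agent.P361.Pos

namespace Vale.Agent.P361

open Matrix NormedSpace Filter Topology

variable {V : Type} [Fintype V] [DecidableEq V] {n : ℕ}

theorem gen_hop_symm (x y : V) (σ τ : V → Fin (n + 1)) : hop n y x σ τ = hop n x y τ σ := by
  simp only [hop, of_apply]
  refine if_congr ⟨fun h => ⟨fun z a b => (h.1 z b a).symm, h.2.2, h.2.1⟩,
    fun h => ⟨fun z a b => (h.1 z b a).symm, h.2.2, h.2.1⟩⟩ (mul_comm _ _) rfl

theorem gen_hop_nn (x y : V) (σ τ : V → Fin (n + 1)) : 0 ≤ hop n x y σ τ := by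
  simp only [hop, of_apply, amp]
  split_ifs
  · positivity
  · exact le_rfl

theorem gen_symm (x y : V) : (gen n x y).IsSymm := by
  ext σ τ
  simp only [gen, transpose_apply, Matrix.sub_apply, Matrix.smul_apply, Matrix.add_apply,
    diagonal_apply]
  rw [gen_hop_symm x y τ σ, ← gen_hop_symm x y σ τ, add_comm]
  by_cases h : σ = τ
  · subst h; rfl
  · rw [if_neg h, if_neg (Ne.symm h)]

theorem LL_symm (E : Finset (V × V)) : (LL n E).IsSymm := by
  unfold LL Matrix.IsSymm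
  rw [transpose_sum]
  exact Finset.sum_congr rfl fun e _ => gen_symm e.1 e.2

theorem LL_off (E : Finset (V × V)) (σ τ : V → Fin (n + 1)) (h : σ ≠ τ) : 0 ≤ LL n E σ τ := by
  unfold LL
  rw [Matrix.sum_apply]
  refine Finset.sum_nonneg fun e _ => ?_
  simp only [gen, Matrix.sub_apply, Matrix.smul_apply, Matrix.add_apply,
    diagonal_apply, if_neg h, smul_eq_mul,
    sub_zero]
  have := gen_hop_nn e.1 e.2 σ τ
  have := gen_hop_nn e.2 e.1 σ τ
  positivity

theorem gen_hop_num {x y : V} (hxy : x ≠ y) (σ τ : V → Fin (n + 1)) (h : num σ ≠ num τ) :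
    hop n x y σ τ = 0 := by
  simp only [hop, of_apply]
  refine if_neg fun hc => h ?_
  obtain ⟨h1, h2, h3⟩ := hc
  have hy : y ∈ Finset.univ.erase x := Finset.mem_erase.2 ⟨hxy.symm, Finset.mem_univ _⟩
  unfold num
  rw [← Finset.add_sum_erase _ _ (Finset.mem_univ x), ← Finset.add_sum_erase _ _ hy,
    ← Finset.add_sum_erase _ (fun z => (τ z).val) (Finset.mem_univ x),
    ← Finset.add_sum_erase _ (fun z => (τ z).val) hy]
  have : ∑ z ∈ (Finset.univ.erase x).erase y, (σ z).val =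
      ∑ z ∈ (Finset.univ.erase x).erase y, (τ z).val := by
    refine Finset.sum_congr rfl fun z hz => ?_
    rw [h1 z (Finset.ne_of_mem_erase (Finset.mem_of_mem_erase hz)) (Finset.ne_of_mem_erase hz)]
  rw [this]
  omega

theorem LL_num {E : Finset (V × V)} (hE : Irr E) (σ τ : V → Fin (n + 1)) (h : num σ ≠ num τ) :
    LL n E σ τ = 0 := by
  unfold LL
  rw [Matrix.sum_apply]
  refine Finset.sum_eq_zero fun e he => ?_
  have hne : σ ≠ τ := fun h' => h (by rw [h'])
  simp only [gen, Matrix.sub_apply, Matrix.smul_apply, Matrix.add_apply,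
    diagonal_apply, if_neg hne,
    gen_hop_num (hE e he) σ τ h, gen_hop_num (hE e he).symm σ τ h]
  simp

theorem gen_one {ι : Type} [Fintype ι] (p : ι → Prop) [DecidablePred p]
    (hp : ∀ a b, p a → p b → a = b) {c : ℝ} (hc : 0 ≤ c) : ∑ a, (if p a then c else 0) ≤ c := by
  by_cases h : ∃ a, p a
  · obtain ⟨a, ha⟩ := h
    rw [Finset.sum_eq_single a, if_pos ha]
    · intro b _ hb
      exact if_neg fun h' => hb (hp _ _ h' ha)
    · intro h; exact absurd (Finset.mem_univ a) h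
  · rw [Finset.sum_eq_zero fun a _ => if_neg fun h' => h ⟨a, h'⟩]
    exact hc

theorem gen_hop_form (x y : V) (f : (V → Fin (n + 1)) → ℝ) :
    ∑ σ, ∑ τ, f σ * (hop n x y σ τ * f τ) ≤
      ∑ σ, (((σ x).val : ℝ) * (n - (σ y).val) + ((σ y).val : ℝ) * (n - (σ x).val)) / 2 *
        f σ ^ 2 := by
  have hn : ∀ i : Fin (n + 1), (0 : ℝ) ≤ n - i.val := fun i => by
    have : i.val ≤ n := Nat.lt_succ_iff.1 i.2
    have : (i.val : ℝ) ≤ n := by exact_mod_cast this
    linarith
  let C : (V → Fin (n + 1)) → (V → Fin (n + 1)) → Prop := fun σ τ =>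
    (∀ z, z ≠ x → z ≠ y → σ z = τ z) ∧ (σ x).val = (τ x).val + 1 ∧ (τ y).val = (σ y).val + 1
  have key : ∀ σ τ, f σ * (hop n x y σ τ * f τ) ≤
      (if C σ τ then ((σ x).val : ℝ) * (n - (σ y).val) / 2 * f σ ^ 2 else 0) +
      (if C σ τ then ((τ y).val : ℝ) * (n - (τ x).val) / 2 * f τ ^ 2 else 0) := by
    intro σ τ
    by_cases hc : C σ τ
    · rw [if_pos hc, if_pos hc]
      have e : hop n x y σ τ = amp n (σ x) * amp n (τ y) := if_pos hc
      obtain ⟨-, h2, h3⟩ := hc
      have h2' : ((σ x).val : ℝ) = (τ x).val + 1 := by exact_mod_cast h2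
      have h3' : ((τ y).val : ℝ) = (σ y).val + 1 := by exact_mod_cast h3
      have hP : (0 : ℝ) ≤ ((σ x).val : ℝ) * (n - (σ y).val) := mul_nonneg (by positivity) (hn _)
      have hR : (0 : ℝ) ≤ ((τ y).val : ℝ) * (n - (τ x).val) := mul_nonneg (by positivity) (hn _)
      have h0 : (0 : ℝ) ≤ ((σ x).val : ℝ) * ((n : ℝ) + 1 - (σ x).val) :=
        mul_nonneg (by positivity) (by have := hn (σ x); linarith)
      have e2 : amp n (σ x) * amp n (τ y) = Real.sqrt (((σ x).val : ℝ) * (n - (σ y).val)) *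
          Real.sqrt (((τ y).val : ℝ) * (n - (τ x).val)) := by
        unfold amp
        rw [← Real.sqrt_mul h0, ← Real.sqrt_mul hP]
        congr 1
        rw [h2', h3']; ring
      rw [e, e2]
      have a1 := Real.sq_sqrt hP
      have a2 := Real.sq_sqrt hR
      set a := Real.sqrt (((σ x).val : ℝ) * (n - (σ y).val))
      set b := Real.sqrt (((τ y).val : ℝ) * (n - (τ x).val))
      rw [← a1, ← a2]
      nlinarith [sq_nonneg (a * f σ - b * f τ)]
    · rw [if_neg hc, if_neg hc]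
      have e : hop n x y σ τ = 0 := if_neg hc
      rw [e]; simp
  have u1 : ∀ σ a b, C σ a → C σ b → a = b := by
    intro σ a b ha hb
    funext z
    by_cases hx : z = x
    · subst hx; have := ha.2.1; have := hb.2.1; exact Fin.ext (by omega)
    by_cases hy : z = y
    · subst hy; have := ha.2.2; have := hb.2.2; exact Fin.ext (by omega)
    rw [← ha.1 z hx hy, ← hb.1 z hx hy]
  have u2 : ∀ τ a b, C a τ → C b τ → a = b := by
    intro τ a b ha hb
    funext z
    by_cases hx : z = x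
    · subst hx; have := ha.2.1; have := hb.2.1; exact Fin.ext (by omega)
    by_cases hy : z = y
    · subst hy; have := ha.2.2; have := hb.2.2; exact Fin.ext (by omega)
    rw [ha.1 z hx hy, hb.1 z hx hy]
  refine (Finset.sum_le_sum fun σ _ => Finset.sum_le_sum fun τ _ => key σ τ).trans ?_
  simp only [Finset.sum_add_distrib]
  rw [Finset.sum_comm (f := fun σ τ =>
    if C σ τ then ((τ y).val : ℝ) * (n - (τ x).val) / 2 * f τ ^ 2 else 0),
    ← Finset.sum_add_distrib]
  refine Finset.sum_le_sum fun σ _ => ?_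
  have b1 := gen_one (fun τ => C σ τ) (u1 σ)
    (c := ((σ x).val : ℝ) * (n - (σ y).val) / 2 * f σ ^ 2) (by have := hn (σ y); positivity)
  have b2 := gen_one (fun τ => C τ σ) (u2 σ)
    (c := ((σ y).val : ℝ) * (n - (σ x).val) / 2 * f σ ^ 2) (by have := hn (σ x); positivity)
  linarith

theorem gen_form {x y : V} (h : x ≠ y) (f : (V → Fin (n + 1)) → ℝ) : f ⬝ᵥ gen n x y *ᵥ f ≤ 0 := by
  have h1 := gen_hop_form x y f
  have h2 := gen_hop_form y x f
  have e1 : f ⬝ᵥ hop n x y *ᵥ f = ∑ σ, ∑ τ, f σ * (hop n x y σ τ * f τ) := by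
    simp only [dotProduct, mulVec, Finset.mul_sum]
  have e2 : f ⬝ᵥ hop n y x *ᵥ f = ∑ σ, ∑ τ, f σ * (hop n y x σ τ * f τ) := by
    simp only [dotProduct, mulVec, Finset.mul_sum]
  have e3 : ∀ d : (V → Fin (n + 1)) → ℝ, f ⬝ᵥ diagonal d *ᵥ f = ∑ σ, d σ * f σ ^ 2 := by
    intro d
    simp only [dotProduct, mulVec_diagonal]
    exact Finset.sum_congr rfl fun σ _ => by ring
  unfold gen
  rw [sub_mulVec, dotProduct_sub, smul_mulVec, dotProduct_smul, add_mulVec, dotProduct_add,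
    e1, e2, e3, smul_eq_mul]
  have e4 : ∑ σ : V → Fin (n + 1), (((σ y).val : ℝ) * (n - (σ x).val) +
      ((σ x).val : ℝ) * (n - (σ y).val)) / 2 * f σ ^ 2 =
      ∑ σ : V → Fin (n + 1), (((σ x).val : ℝ) * (n - (σ y).val) +
      ((σ y).val : ℝ) * (n - (σ x).val)) / 2 * f σ ^ 2 :=
    Finset.sum_congr rfl fun σ _ => by ring
  rw [e4] at h2
  linarith

theorem ZZ_eq {E : Finset (V × V)} (hE : Irr E) (β μ : ℝ) : ZZ n E β (Real.exp μ) =
    trace (exp (β • LL n E + diagonal fun σ => μ * num σ)) := by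
  rw [tr_diag]
  · unfold ZZ
    refine Finset.sum_congr rfl fun σ _ => ?_
    rw [mul_comm μ, Real.exp_nat_mul]
  · intro σ τ h
    rw [Matrix.smul_apply, LL_num hE σ τ fun h' => h (by rw [h']), smul_zero]

theorem gen_symm' (E : Finset (V × V)) (β : ℝ) (d : (V → Fin (n + 1)) → ℝ) :
    (β • LL n E + diagonal d).IsSymm :=
  ((LL_symm E).smul β).add (isSymm_diagonal d)

theorem ZZ_mono {E E' : Finset (V × V)} (hE : Irr E) (h : E' ⊆ E) {β z : ℝ} (hβ : 0 ≤ β)
    (hz : 0 < z) : ZZ n E β z ≤ ZZ n E' β z := by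
  have hE' : Irr E' := fun e he => hE e (h he)
  rw [← Real.exp_log hz, ZZ_eq hE, ZZ_eq hE']
  refine tr_mono (gen_symm' _ _ _) (gen_symm' _ _ _) fun f => ?_
  simp only [add_mulVec, dotProduct_add, smul_mulVec, dotProduct_smul, smul_eq_mul]
  have : f ⬝ᵥ LL n E *ᵥ f ≤ f ⬝ᵥ LL n E' *ᵥ f := by
    unfold LL
    rw [sum_mulVec, dotProduct_sum, sum_mulVec, dotProduct_sum, ← Finset.sum_sdiff h]
    have : ∑ e ∈ E \ E', f ⬝ᵥ gen n e.1 e.2 *ᵥ f ≤ 0 :=
      Finset.sum_nonpos fun e he => gen_form (hE e (Finset.mem_sdiff.1 he).1) f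
    exact add_le_of_nonpos_left this
  have := mul_le_mul_of_nonneg_left this hβ
  linarith

theorem ZZ_pos {E : Finset (V × V)} (hE : Irr E) (β : ℝ) {z : ℝ} (hz : 0 < z) :
    0 < ZZ n E β z := by
  rw [← Real.exp_log hz, ZZ_eq hE]
  refine lt_of_lt_of_le ?_ (peierls (κ := Unit) (gen_symm' _ _ _)
    (fun _ => Pi.single (fun _ => 0) 1) fun a b => by simp)
  exact Finset.sum_pos (fun _ _ => Real.exp_pos _) Finset.univ_nonempty

theorem ZZ_hold {E : Finset (V × V)} (hE : Irr E) {β θ : ℝ} (hβ : 0 ≤ β) (μ : ℝ) (h0 : 0 ≤ θ)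
    (h1 : θ ≤ 1) : Real.log (ZZ n E β (Real.exp (θ * μ))) ≤
      (1 - θ) * Real.log (ZZ n E β 1) + θ * Real.log (ZZ n E β (Real.exp μ)) := by
  have hA := ZZ_pos (n := n) hE β one_pos
  have hB := ZZ_pos (n := n) hE β (Real.exp_pos μ)
  rw [Real.log_le_iff_le_exp (ZZ_pos hE β (Real.exp_pos _))]
  set A := ZZ n E β 1 with hAe
  set B := ZZ n E β (Real.exp μ) with hBe
  set c := (1 - θ) * Real.log A + θ * Real.log B with hc
  have key : ∀ k : ℕ, Real.exp (θ * μ) ^ k ≤
      Real.exp c * ((1 - θ) / A * 1 ^ k + θ / B * Real.exp μ ^ k) := by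
    intro k
    have := convexOn_exp.2 (Set.mem_univ (-Real.log A)) (Set.mem_univ (k * μ - Real.log B))
      (sub_nonneg.2 h1) h0 (by ring)
    simp only [smul_eq_mul] at this
    rw [Real.exp_neg, Real.exp_log hA, Real.exp_sub, Real.exp_log hB, Real.exp_nat_mul] at this
    have e : Real.exp (θ * μ) ^ k = Real.exp c *
        Real.exp ((1 - θ) * -Real.log A + θ * (k * μ - Real.log B)) := by
      rw [← Real.exp_nat_mul, ← Real.exp_add, hc]
      congr 1; ring
    rw [e]
    refine mul_le_mul_of_nonneg_left (this.trans (le_of_eq ?_)) (Real.exp_pos _).le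
    rw [one_pow]; field_simp
  have hw : ∀ σ, 0 ≤ exp (β • LL n E) σ σ := fun σ => exp_nn (LL_off E) hβ σ σ
  calc ZZ n E β (Real.exp (θ * μ))
      ≤ ∑ σ : V → Fin (n + 1), Real.exp c * ((1 - θ) / A * 1 ^ num σ +
          θ / B * Real.exp μ ^ num σ) * exp (β • LL n E) σ σ :=
        Finset.sum_le_sum fun σ _ => mul_le_mul_of_nonneg_right (key _) (hw σ)
    _ = Real.exp c * ((1 - θ) / A * A + θ / B * B) := by
        rw [hAe, hBe]
        unfold ZZ
        rw [Finset.mul_sum, Finset.mul_sum, ← Finset.sum_add_distrib, Finset.mul_sum]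
        exact Finset.sum_congr rfl fun σ _ => by ring
    _ = Real.exp c := by field_simp; ring

end Vale.Agent.P361
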