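import Vale.Agent.P361.Dbl
import Vale.Agent.P361.Eeb
import Vale.Agent.P361.Gen

namespace Vale.Agent.P361

open Matrix NormedSpace Filter Topology

section
variable {ι : Type} [Fintype ι] [DecidableEq ι]

theorem Dle_add (X A B : Matrix ι ι ℝ) : TT X (A + B) = TT X A + TT X B := by
  simp only [TT, Matrix.mul_add, trace_add]

theorem Dle_sub (X A B : Matrix ι ι ℝ) : TT X (A - B) = TT X A - TT X B := by
  simp only [TT, Matrix.mul_sub, trace_sub]

theorem Dle_smul (X : Matrix ι ι ℝ) (c : ℝ) (A : Matrix ι ι ℝ) : TT X (c • A) = c * TT X A := by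
  simp only [TT, Matrix.mul_smul, trace_smul, smul_eq_mul]

theorem Dle_sum {κ : Type} (X : Matrix ι ι ℝ) (s : Finset κ) (A : κ → Matrix ι ι ℝ) :
    TT X (∑ k ∈ s, A k) = ∑ k ∈ s, TT X (A k) := by
  simp only [TT, Matrix.mul_sum, trace_sum]

theorem Dle_diag {X : Matrix ι ι ℝ} (hX : X.IsSymm) {d : ι → ℝ} (h : ∀ i, d i ≤ 0) :
    TT X (diagonal d) ≤ 0 := by
  refine TT_nonpos hX fun f => Finset.sum_nonpos fun i _ => ?_
  rw [mulVec_diagonal]
  nlinarith [mul_nonneg (neg_nonneg.2 (h i)) (mul_self_nonneg (f i))]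

omit [DecidableEq ι] in
theorem Dle_dc {κ : Type} (s : Finset κ) (Y : κ → Matrix ι ι ℝ) (β : ℝ) (D A : Matrix ι ι ℝ) :
    dc (β • ∑ e ∈ s, Y e + D) A = β • ∑ e ∈ s, dc (Y e) A + dc D A := by
  simp only [dc, Finset.sum_sub_distrib, Matrix.mul_sub, Matrix.sub_mul, Matrix.mul_add,
    Matrix.add_mul, Matrix.mul_smul, Matrix.smul_mul, Matrix.mul_sum, Matrix.sum_mul, smul_sub]
  abel

end

variable {V : Type} [Fintype V] [DecidableEq V] {n : ℕ}

theorem XX_symm (E : Finset (V × V)) (β μ : ℝ) : (XX n E β μ).IsSymm := gen_symm' E β _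

theorem Dle_edge {X : Matrix (V → Fin (n + 1)) (V → Fin (n + 1)) ℝ} (hX : X.IsSymm) {x y : V}
    (h : x ≠ y) (u : V → ℝ) :
    TT X (dc (gen n x y) (AA n u)) ≤ (n : ℝ) ^ 2 / 2 * (u x - u y) ^ 2 * TT X 1 := by
  have h1 : TT X (hop n y x) = TT X (hop n x y) := by
    rw [← TT_transpose hX (hop n x y)]
    congr 1
    ext σ τ
    exact gen_hop_symm x y σ τ |>.trans (by rw [transpose_apply]) |>.trans rfl
  have h2 := TT_nonpos hX (gen_form (n := n) h)
  rw [gen_eq, Dle_sub, Dle_add, Dle_smul, Dle_smul, Dle_add, h1] at h2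
  have h3 : TT X (zed n x * zed n y - ((n : ℝ) ^ 2 / 4) • (1 : Matrix _ _ ℝ)) ≤ 0 := by
    rw [zed, zed, diagonal_mul_diagonal, ← diagonal_one, ← diagonal_smul, diagonal_sub]
    refine Dle_diag hX fun σ => ?_
    have a : ∀ i : Fin (n + 1), (0 : ℝ) ≤ i.val ∧ (i.val : ℝ) ≤ n := fun i =>
      ⟨Nat.cast_nonneg _, by exact_mod_cast Nat.lt_succ_iff.1 i.2⟩
    obtain ⟨a1, a2⟩ := a (σ x)
    obtain ⟨a3, a4⟩ := a (σ y)
    simp only [Pi.smul_apply, smul_eq_mul, mul_one]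
    nlinarith [mul_nonneg a1 (sub_nonneg.2 a4), mul_nonneg a3 (sub_nonneg.2 a2)]
  rw [Dle_sub, Dle_smul] at h3
  rw [dc_gen h]
  simp only [Dle_smul, Dle_sub, Dle_add, h1]
  have h4 : TT X (hop n x y) + 2 * TT X (zed n x * zed n y) ≤ (n : ℝ) ^ 2 / 2 * TT X 1 := by
    linarith
  nlinarith [mul_le_mul_of_nonneg_left h4 (sq_nonneg (u x - u y))]

theorem dc_le {E : Finset (V × V)} (hE : Irr E) {β : ℝ} (hβ : 0 ≤ β) (μ : ℝ) (u : V → ℝ) :
    TT (XX n E β μ) (dc (XX n E β μ) (AA n u)) ≤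
      β * ((n : ℝ) ^ 2 / 2) * (∑ e ∈ E, (u e.1 - u e.2) ^ 2) * TT (XX n E β μ) 1 -
        μ * (TT (XX n E β μ) ((AA n u)ᵀ * AA n u) - TT (XX n E β μ) (AA n u * (AA n u)ᵀ)) := by
  have hX := XX_symm (n := n) E β μ
  have h1 : dc (XX n E β μ) (AA n u) = β • ∑ e ∈ E, dc (gen n e.1 e.2) (AA n u) +
      -μ • ((AA n u)ᵀ * AA n u - AA n u * (AA n u)ᵀ) := by
    rw [← dc_num, ← Dle_dc]
    rfl
  rw [h1, Dle_add, Dle_smul, Dle_smul, Dle_sum, Dle_sub]
  have h2 := mul_le_mul_of_nonneg_left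
    (Finset.sum_le_sum fun e (he : e ∈ E) => Dle_edge hX (hE e he) u) hβ
  rw [← Finset.sum_mul, ← Finset.mul_sum] at h2
  linarith

theorem sum_rule {K : Type} [Fintype K] {E : Finset (V × V)} (β μ : ℝ) (φ : K → V → ℝ)
    (h : ∀ x y, ∑ k, φ k x * φ k y = if x = y then 1 else 0) :
    ∑ k, TT (XX n E β μ) (AA n (φ k) * (AA n (φ k))ᵀ) ≤
      n * ((Fintype.card V : ℝ) * n / 2 * TT (XX n E β μ) 1 - ∑ x, TT (XX n E β μ) (zed n x)) := by
  have hX := XX_symm (n := n) E β μ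
  set X := XX n E β μ
  have h1 : ∑ k, TT X (AA n (φ k) * (AA n (φ k))ᵀ) = ∑ x, TT X (low n x * (low n x)ᵀ) := by
    have : ∀ k, TT X (AA n (φ k) * (AA n (φ k))ᵀ) =
        ∑ x, ∑ y, φ k x * φ k y * TT X (low n x * (low n y)ᵀ) := by
      intro k
      simp only [AA, transpose_sum, transpose_smul, Matrix.sum_mul, Matrix.mul_sum,
        Matrix.smul_mul, Matrix.mul_smul, Dle_sum, Dle_smul, Finset.mul_sum]
      refine Finset.sum_comm.trans (Finset.sum_congr rfl fun x _ =>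
        Finset.sum_congr rfl fun y _ => by ring)
    simp only [this]
    rw [Finset.sum_comm]
    refine Finset.sum_congr rfl fun x _ => ?_
    rw [Finset.sum_comm]
    simp only [← Finset.sum_mul, h, ite_mul, one_mul, zero_mul, Finset.sum_ite_eq,
      Finset.mem_univ, if_true]
  have h2 : ∀ x, TT X (low n x * (low n x)ᵀ) ≤ n * ((n : ℝ) / 2 * TT X 1 - TT X (zed n x)) := by
    intro x
    have : TT X (low n x * (low n x)ᵀ -
        (n : ℝ) • (((n : ℝ) / 2) • (1 : Matrix _ _ ℝ) - zed n x)) ≤ 0 := by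
      rw [low_lowT, zed, ← diagonal_one, ← diagonal_smul, diagonal_sub, ← diagonal_smul,
        diagonal_sub]
      refine Dle_diag hX fun σ => ?_
      simp only [Pi.smul_apply, smul_eq_mul, mul_one]
      rcases Nat.eq_zero_or_pos (σ x).val with h0 | h0
      · rw [h0]; simp
      · have : (1 : ℝ) ≤ (σ x).val := by exact_mod_cast h0
        nlinarith
    rw [Dle_sub, Dle_smul, Dle_sub, Dle_smul] at this
    linarith
  rw [h1]
  refine (Finset.sum_le_sum fun x _ => h2 x).trans (le_of_eq ?_)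
  rw [← Finset.mul_sum, Finset.sum_sub_distrib, Finset.sum_const, Finset.card_univ, nsmul_eq_mul]
  ring

end Vale.Agent.P361
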