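import Vale.Agent.P361.K1

namespace Vale.Agent.P361

open Matrix NormedSpace Filter Topology

theorem k3_lap {V : Type} [Fintype V] [DecidableEq V] (E : Finset (V × V)) (u : V → ℝ) (x : V) :
    lap E u x = (∑ y, if (x, y) ∈ E then u y - u x else 0) +
      ∑ y, if (y, x) ∈ E then u y - u x else 0 := by
  have h1 : ∀ f : V × V → ℝ, ∑ e ∈ E, f e = ∑ a, ∑ c, if (a, c) ∈ E then f (a, c) else 0 := by
    intro f
    rw [← Finset.sum_product', Finset.univ_product_univ, ← Finset.sum_filter]
    exact Finset.sum_congr (by ext e; simp) fun _ _ => rfl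
  unfold lap
  rw [Finset.sum_add_distrib, h1, h1]
  congr 1
  · rw [Finset.sum_eq_single x]
    · simp
    · intro a _ ha
      simp [ha]
    · simp
  · refine Finset.sum_congr rfl fun a _ => ?_
    rw [Finset.sum_eq_single x]
    · simp
    · intro c _ hc
      simp [hc]
    · simp

theorem k3_mul {V : Type} [Fintype V] [DecidableEq V] (E : Finset (V × V)) (u : V → ℝ) (c : ℝ)
    (x : V) : lap E (fun a => u a * c) x = c * lap E u x := by
  unfold lap
  rw [Finset.mul_sum]
  refine Finset.sum_congr rfl fun e _ => ?_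
  split_ifs <;> ring

theorem k3_sum {ι W : Type} [Fintype ι] [DecidableEq ι] [Fintype W] [DecidableEq W]
    (R : W → W → Prop) [DecidableRel R] (hR : ∀ a, ¬ R a a) (x : ι → W) (P : (ι → W) → Prop)
    [DecidablePred P] (hP : ∀ y, P y ↔ ∃ i, R (x i) (y i) ∧ ∀ j, j ≠ i → y j = x j)
    (g : (ι → W) → ℝ) :
    (∑ y, if P y then g y else 0) =
      ∑ i, ∑ a, if R (x i) a then g (Function.update x i a) else 0 := by
  rw [← Finset.sum_product', ← Finset.sum_filter, ← Finset.sum_filter]
  symm
  refine Finset.sum_bij (fun p _ => Function.update x p.1 p.2) ?_ ?_ ?_ fun _ _ => rfl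
  · rintro ⟨i, a⟩ hp
    have h := (Finset.mem_filter.1 hp).2
    refine Finset.mem_filter.2 ⟨Finset.mem_univ _, (hP _).2 ⟨i, ?_, fun j hj => ?_⟩⟩
    · simpa using h
    · exact Function.update_of_ne hj _ _
  · rintro ⟨i, a⟩ hp ⟨j, c⟩ _ e
    have h := (Finset.mem_filter.1 hp).2
    have e1 := congrFun e i
    by_cases hij : i = j
    · subst hij
      simp only [Function.update_self] at e1
      rw [e1]
    · simp only [Function.update_self, Function.update_of_ne hij] at e1
      simp only [e1] at h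
      exact absurd h (hR _)
  · intro y hy
    obtain ⟨i, h1, h2⟩ := (hP y).1 (Finset.mem_filter.1 hy).2
    refine ⟨(i, y i), Finset.mem_filter.2 ⟨by simp, h1⟩, ?_⟩
    funext j
    by_cases hj : j = i
    · subst hj; simp
    · simp only [Function.update_of_ne hj, h2 j hj]

theorem k3_split {N : ℕ} {Q : Type} [DecidableEq Q] (b1 : Fin (2 * N + 1) → Q) (u : Box N → ℝ)
    (x : Box N) :
    lap ((edges N).filter fun e : Box N × Box N => (fun i => b1 (e.1 i)) = fun i => b1 (e.2 i)) u x =
      ∑ i, lap (Finset.univ.filter fun e : Fin (2 * N + 1) × Fin (2 * N + 1) =>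
        e.2.val = e.1.val + 1 ∧ b1 e.1 = b1 e.2) (fun a => u (Function.update x i a)) (x i) := by
  simp only [k3_lap, Finset.sum_add_distrib, Function.update_eq_self]
  congr 1
  · rw [k3_sum (fun a c : Fin (2 * N + 1) => c.val = a.val + 1 ∧ b1 a = b1 c)
      (fun a h => by omega) x]
    · simp
    · intro y
      simp only [edges, Finset.mem_filter, Finset.mem_univ, true_and]
      constructor
      · rintro ⟨⟨i, h1, h2⟩, h3⟩
        exact ⟨i, ⟨h1, congrFun h3 i⟩, h2⟩
      · rintro ⟨i, ⟨h1, h3⟩, h2⟩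
        refine ⟨⟨i, h1, h2⟩, funext fun j => ?_⟩
        by_cases hj : j = i
        · rw [hj, h3]
        · rw [h2 j hj]
  · rw [k3_sum (fun a c : Fin (2 * N + 1) => a.val = c.val + 1 ∧ b1 c = b1 a)
      (fun a h => by omega) x]
    · simp
    · intro y
      simp only [edges, Finset.mem_filter, Finset.mem_univ, true_and]
      constructor
      · rintro ⟨⟨i, h1, h2⟩, h3⟩
        exact ⟨i, ⟨h1, congrFun h3 i⟩, fun j hj => (h2 j hj).symm⟩
      · rintro ⟨i, ⟨h1, h3⟩, h2⟩
        refine ⟨⟨i, h1, fun j hj => (h2 j hj).symm⟩, funext fun j => ?_⟩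
        by_cases hj : j = i
        · rw [hj, h3]
        · rw [h2 j hj]

theorem ker_three {N l : ℕ} (hl : 0 < l) (hM : l ≤ 2 * N + 1) {κ t : ℝ} (hκ : 0 < κ)
    (ht : (l : ℝ) ^ 2 ≤ κ * t) : ∃ (b : Box N → Fin 3 → Fin ((2 * N + 1) / l))
    (E : Finset (Box N × Box N)) (q : ℝ → Box N → Box N → ℝ), E ⊆ edges N ∧
    (∀ j, (Finset.univ.filter fun x => b x = j).card ≤ (2 * l) ^ 3) ∧
    Ker E κ t ((3 / l) ^ 3) b q := by
  obtain ⟨b1, q1, hc, hK⟩ := ker_one hl hM hκ ht
  have ht0 : 0 ≤ t := by
    have : 0 ≤ κ * t := (sq_nonneg _).trans ht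
    exact nonneg_of_mul_nonneg_right this hκ
  refine ⟨fun x i => b1 (x i),
    (edges N).filter fun e : Box N × Box N => (fun i => b1 (e.1 i)) = fun i => b1 (e.2 i),
    fun s x y => ∏ i, q1 s (x i) (y i), Finset.filter_subset _ _, fun j => ?_, ?_, ?_, ?_, ?_⟩
  · have e : (Finset.univ.filter fun x : Box N => (fun i => b1 (x i)) = j) =
        Fintype.piFinset fun i => Finset.univ.filter fun a => b1 a = j i := by
      ext x
      simp [funext_iff]
    rw [e, Fintype.card_piFinset]
    refine (Finset.prod_le_pow_card _ _ (2 * l) fun i _ => hc (j i)).trans_eq ?_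
    simp
  · exact fun s x y hs => Finset.prod_nonneg fun i _ => hK.nn s _ _ hs
  · exact fun x => Finset.prod_eq_one fun i _ => hK.one _
  · intro s x y
    have h := HasDerivAt.fun_finset_prod (u := Finset.univ)
      fun i _ => hK.der s (x i) (y i)
    refine h.congr_deriv ?_
    rw [k3_split, Finset.mul_sum]
    refine Finset.sum_congr rfl fun i _ => ?_
    have e : (fun a => ∏ j, q1 s (Function.update x i a j) (y j)) =
        fun a => q1 s a (y i) * ∏ j ∈ Finset.univ.erase i, q1 s (x j) (y j) := by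
      funext a
      rw [← Finset.mul_prod_erase _ _ (Finset.mem_univ i), Function.update_self]
      congr 1
      exact Finset.prod_congr rfl fun j hj => by
        rw [Function.update_of_ne (Finset.ne_of_mem_erase hj)]
    rw [e, k3_mul, smul_eq_mul]
    ring
  · intro x y
    refine (Finset.prod_le_prod (fun i _ => hK.nn t _ _ ht0) fun i _ => hK.bd (x i) (y i)).trans ?_
    split_ifs with h
    · have : ∀ i, b1 (x i) = b1 (y i) := congrFun h
      simp [this, div_pow]
    · obtain ⟨i, hi⟩ := Function.ne_iff.1 h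
      exact (Finset.prod_eq_zero (Finset.mem_univ i) (if_neg hi)).le

end Vale.Agent.P361
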