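import Vale.Agent.P361.Gen

namespace Vale.Agent.P361

open Matrix NormedSpace Filter Topology

variable {V Q : Type} [Fintype V] [DecidableEq V] [DecidableEq Q] {n : ℕ}

/-- one magnon in each block of `A`, none elsewhere -/
def lowC (b : V → Q) (A : Finset Q) (σ : V → Fin (n + 1)) : Prop :=
  ∀ j, ∑ x ∈ Finset.univ.filter (fun x => b x = j), (σ x).val = if j ∈ A then 1 else 0

open Classical in
/-- trial state -/
noncomputable def lowP (b : V → Q) (ψ : V → ℝ) (A : Finset Q) (σ : V → Fin (n + 1)) : ℝ :=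
  if lowC b A σ then ∏ x, ψ x ^ (σ x).val else 0

theorem low_nn {b : V → Q} {ψ : V → ℝ} (h : ∀ x, 0 ≤ ψ x) (A : Finset Q) (σ : V → Fin (n + 1)) :
    0 ≤ lowP b ψ A σ := by
  unfold lowP
  split_ifs
  · exact Finset.prod_nonneg fun x _ => pow_nonneg (h x) _
  · exact le_rfl

theorem low_hop_nn (x y : V) (σ τ : V → Fin (n + 1)) : 0 ≤ hop n x y σ τ := by
  simp only [hop, of_apply]
  split_ifs
  · exact mul_nonneg (Real.sqrt_nonneg _) (Real.sqrt_nonneg _)
  · exact le_rfl

theorem low_occ {b : V → Q} {A : Finset Q} {σ : V → Fin (n + 1)} (h : lowC b A σ) {x : V}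
    (hx : (σ x).val ≠ 0) : b x ∈ A ∧ (σ x).val = 1 ∧ ∀ y, y ≠ x → b y = b x → (σ y).val = 0 := by
  have h1 := h (b x)
  have hm : x ∈ Finset.univ.filter (fun y => b y = b x) := by simp
  rw [← Finset.add_sum_erase _ _ hm] at h1
  by_cases hA : b x ∈ A
  · rw [if_pos hA] at h1
    refine ⟨hA, by omega, fun y hy hb => ?_⟩
    have h2 : ∑ z ∈ (Finset.univ.filter (fun y => b y = b x)).erase x, (σ z).val = 0 := by omega
    exact Finset.sum_eq_zero_iff.1 h2 y (by simp [hy, hb])
  · rw [if_neg hA] at h1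
    omega

theorem low_num {b : V → Q} {A : Finset Q} {σ : V → Fin (n + 1)} (h : lowC b A σ) :
    ∑ x, (σ x).val = A.card := by
  have h1 : ∑ x, (σ x).val = ∑ x ∈ Finset.univ.filter (fun x => b x ∈ A), (σ x).val := by
    symm
    refine Finset.sum_subset (Finset.filter_subset _ _) fun x _ hx => ?_
    by_contra h0
    exact hx (by simpa using (low_occ h h0).1)
  rw [h1, ← Finset.sum_fiberwise_of_maps_to (t := A) (g := b) (fun x hx => by simpa using hx),
    Finset.card_eq_sum_ones]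
  refine Finset.sum_congr rfl fun j hj => ?_
  have h2 := h j
  rw [if_pos hj] at h2
  refine Eq.trans (Finset.sum_congr ?_ fun _ _ => rfl) h2
  ext x
  simp only [Finset.mem_filter, Finset.mem_univ, true_and]
  exact ⟨fun hx => hx.2, fun hx => ⟨hx ▸ hj, hx⟩⟩

theorem low_two {M : Type} [CommMonoid M] {s : Finset V} {x y : V} (hx : x ∈ s) (hy : y ∈ s)
    (hxy : x ≠ y) (f : V → M) : ∏ z ∈ s, f z = f x * f y * ∏ z ∈ (s.erase x).erase y, f z := by
  rw [← Finset.mul_prod_erase s f hx,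
    ← Finset.mul_prod_erase (s.erase x) f (Finset.mem_erase.2 ⟨hxy.symm, hy⟩), mul_assoc]

theorem low_G (hn : 0 < n) {b : V → Q} {ψ : V → ℝ} (h0 : ∀ x, 0 ≤ ψ x) {A : Finset Q}
    {σ : V → Fin (n + 1)} (hp : 0 < lowP b ψ A σ) {x y : V} (hxy : x ≠ y) :
    n * (((σ x).val : ℝ) / ψ x * ((if b y = b x then ψ y else 0) - ψ x)) * lowP b ψ A σ ≤
      (hop n x y *ᵥ lowP b ψ A) σ - ((σ x).val : ℝ) * (n - (σ y).val) * lowP b ψ A σ := by
  have hC : lowC b A σ := by
    by_contra hc
    simp [lowP, hc] at hp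
  have hS : 0 ≤ (hop n x y *ᵥ lowP b ψ A) σ :=
    Finset.sum_nonneg fun τ _ => mul_nonneg (low_hop_nn _ _ _ _) (low_nn h0 _ _)
  by_cases hx : (σ x).val = 0
  · simpa [hx] using hS
  obtain ⟨-, h1, h2⟩ := low_occ hC hx
  have hP : lowP b ψ A σ = ∏ x, ψ x ^ (σ x).val := by simp [lowP, hC]
  have hψ : 0 < ψ x := by
    rcases (h0 x).lt_or_eq with h | h
    · exact h
    · rw [hP, Finset.prod_eq_zero (Finset.mem_univ x) (by rw [← h, h1]; simp)] at hp
      exact absurd hp (lt_irrefl _)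
  rw [h1]
  by_cases hb : b y = b x
  · have hy := h2 y hxy.symm hb
    let τ : V → Fin (n + 1) := fun z => if z = x then 0 else if z = y then ⟨1, by omega⟩ else σ z
    have tx : (τ x).val = 0 := by simp [τ]
    have ty : (τ y).val = 1 := by simp [τ, hxy.symm]
    have tz : ∀ z, z ≠ x → z ≠ y → τ z = σ z := fun z hz hz' => by simp [τ, hz, hz']
    have hτ : lowC b A τ := fun j => by
      rw [← hC j]
      by_cases hj : b x = j
      · have e := fun f : V → ℕ => low_two (M := Multiplicative ℕ)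
          (s := Finset.univ.filter (fun z => b z = j)) (x := x) (y := y) (by simp [hj])
          (by simp [hb, hj]) hxy fun z => Multiplicative.ofAdd (f z)
        simp only [← ofAdd_sum, ← ofAdd_add, EmbeddingLike.apply_eq_iff_eq] at e
        rw [e, e fun z => (σ z).val, tx, ty, h1, hy]
        congr 1
        refine Finset.sum_congr rfl fun z hz => ?_
        simp only [Finset.mem_erase] at hz
        rw [tz z hz.2.1 hz.1]
      · refine Finset.sum_congr rfl fun z hz => ?_
        simp only [Finset.mem_filter, Finset.mem_univ, true_and] at hz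
        rw [tz z (fun h => hj (h ▸ hz)) (fun h => hj (hb ▸ h ▸ hz))]
    have hh : hop n x y σ τ = n := by
      simp only [hop, of_apply]
      rw [if_pos ⟨fun z hz hz' => (tz z hz hz').symm, by omega, by omega⟩, h1, ty]
      simp only [amp]
      rw [Real.mul_self_sqrt (by push_cast; linarith [Nat.cast_nonneg (α := ℝ) n])]
      push_cast
      ring
    have hR : ∏ z ∈ (Finset.univ.erase x).erase y, ψ z ^ (τ z).val =
        ∏ z ∈ (Finset.univ.erase x).erase y, ψ z ^ (σ z).val := by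
      refine Finset.prod_congr rfl fun z hz => ?_
      simp only [Finset.mem_erase] at hz
      rw [tz z hz.2.1 hz.1]
    have hPτ : lowP b ψ A τ = ψ y / ψ x * lowP b ψ A σ := by
      rw [hP]
      simp only [lowP, if_pos hτ]
      rw [low_two (Finset.mem_univ x) (Finset.mem_univ y) hxy,
        low_two (Finset.mem_univ x) (Finset.mem_univ y) hxy fun z => ψ z ^ (σ z).val,
        hR, tx, ty, h1, hy]
      field_simp
    have hS' : hop n x y σ τ * lowP b ψ A τ ≤ (hop n x y *ᵥ lowP b ψ A) σ :=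
      Finset.single_le_sum (f := fun τ => hop n x y σ τ * lowP b ψ A τ)
        (fun τ _ => mul_nonneg (low_hop_nn _ _ _ _) (low_nn h0 _ _)) (Finset.mem_univ τ)
    rw [hh, hPτ] at hS'
    rw [if_pos hb, hy]
    have : (n : ℝ) * (((1 : ℕ) : ℝ) / ψ x * (ψ y - ψ x)) * lowP b ψ A σ =
        n * (ψ y / ψ x * lowP b ψ A σ) - ((1 : ℕ) : ℝ) * (n - (0 : ℕ)) * lowP b ψ A σ := by
      push_cast
      field_simp
      ring
    rw [this]
    linarith
  · rw [if_neg hb]
    have : (n : ℝ) * (((1 : ℕ) : ℝ) / ψ x * (0 - ψ x)) * lowP b ψ A σ = -(n * lowP b ψ A σ) := by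
      push_cast
      field_simp
      ring
    rw [this]
    have : 0 ≤ ((σ y).val : ℝ) * lowP b ψ A σ := mul_nonneg (Nat.cast_nonneg _) hp.le
    push_cast
    nlinarith

theorem low_pt (hn : 0 < n) {E : Finset (V × V)} (hE : Irr E) {lam : ℝ}
    {b : V → Q} {B : Finset Q} {ψ : V → ℝ} (h : Trial E lam b B ψ) {A : Finset Q} (hA : A ⊆ B)
    {σ : V → Fin (n + 1)} (hp : 0 < lowP b ψ A σ) :
    -(n / 2 * lam * A.card) * lowP b ψ A σ ≤ (LL n E *ᵥ lowP b ψ A) σ := by
  have hC : lowC b A σ := by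
    by_contra hc
    simp [lowP, hc] at hp
  have hP : lowP b ψ A σ = ∏ x, ψ x ^ (σ x).val := by simp [lowP, hC]
  set T : V → V → ℝ := fun x y =>
    ((σ x).val : ℝ) / ψ x * ((if b y = b x then ψ y else 0) - ψ x) with hT
  have h1 : ∀ e ∈ E, n / 2 * (T e.1 e.2 + T e.2 e.1) * lowP b ψ A σ ≤
      (gen n e.1 e.2 *ᵥ lowP b ψ A) σ := fun e he => by
    have a1 := low_G hn h.nn hp (hE e he)
    have a2 := low_G hn h.nn hp (hE e he).symm
    simp only [gen, sub_mulVec, smul_mulVec, add_mulVec, Pi.sub_apply, Pi.smul_apply,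
      Pi.add_apply, mulVec_diagonal, smul_eq_mul, hT]
    linarith
  have h2 : ∑ e ∈ E, (T e.1 e.2 + T e.2 e.1) =
      ∑ x, ((σ x).val : ℝ) / ψ x * lap E (fun y => if b y = b x then ψ y else 0) x := by
    simp only [lap, Finset.mul_sum]
    rw [Finset.sum_comm]
    refine Finset.sum_congr rfl fun e _ => ?_
    simp only [mul_add, Finset.sum_add_distrib, mul_ite, mul_zero, Finset.sum_ite_eq,
      Finset.mem_univ, if_true, hT]
  have h3 : ∀ x, -lam * ((σ x).val : ℝ) ≤
      ((σ x).val : ℝ) / ψ x * lap E (fun y => if b y = b x then ψ y else 0) x := fun x => by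
    by_cases hx : (σ x).val = 0
    · simp [hx]
    obtain ⟨b1, b2, -⟩ := low_occ hC hx
    have hψ : 0 < ψ x := by
      rcases (h.nn x).lt_or_eq with h' | h'
      · exact h'
      · rw [hP, Finset.prod_eq_zero (Finset.mem_univ x) (by rw [← h', b2]; simp)] at hp
        exact absurd hp (lt_irrefl _)
    have := h.sub x (hA b1) hψ
    rw [b2, Nat.cast_one, mul_one, one_div, ← div_eq_inv_mul, le_div_iff₀ hψ]
    exact this
  have h4 : -lam * A.card ≤ ∑ e ∈ E, (T e.1 e.2 + T e.2 e.1) := by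
    rw [h2, ← low_num hC, Nat.cast_sum, Finset.mul_sum]
    exact Finset.sum_le_sum fun x _ => h3 x
  have h5 : (LL n E *ᵥ lowP b ψ A) σ = ∑ e ∈ E, (gen n e.1 e.2 *ᵥ lowP b ψ A) σ := by
    rw [LL, sum_mulVec, Finset.sum_apply]
  rw [h5]
  refine le_trans ?_ (Finset.sum_le_sum h1)
  rw [← Finset.sum_mul, ← Finset.mul_sum]
  refine mul_le_mul_of_nonneg_right ?_ hp.le
  have : (0 : ℝ) ≤ n / 2 := by positivity
  nlinarith

theorem low_ne (hn : 0 < n) {E : Finset (V × V)} {lam : ℝ}
    {b : V → Q} {B : Finset Q} {ψ : V → ℝ} (h : Trial E lam b B ψ) {A : Finset Q} (hA : A ⊆ B) :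
    (lowP b ψ A : (V → Fin (n + 1)) → ℝ) ≠ 0 := by
  classical
  choose c hc using h.ex
  let σ : V → Fin (n + 1) := fun x =>
    if ∃ j, ∃ hj : j ∈ A, x = c j (hA hj) then ⟨1, by omega⟩ else 0
  have s1 : ∀ x, (∃ j, ∃ hj : j ∈ A, x = c j (hA hj)) → (σ x).val = 1 := fun x hx => by
    simp only [σ, if_pos hx]
  have s0 : ∀ x, (¬ ∃ j, ∃ hj : j ∈ A, x = c j (hA hj)) → (σ x).val = 0 := fun x hx => by
    simp only [σ, if_neg hx, Fin.val_zero]
  have hC : lowC b A σ := fun j => by
    by_cases hj : j ∈ A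
    · rw [if_pos hj, Finset.sum_eq_single (c j (hA hj))]
      · exact s1 _ ⟨j, hj, rfl⟩
      · intro x hx hne
        simp only [Finset.mem_filter, Finset.mem_univ, true_and] at hx
        refine s0 x ?_
        rintro ⟨j', hj', rfl⟩
        have := (hc j' (hA hj')).1.symm.trans hx
        subst this
        exact hne rfl
      · intro hx
        exact absurd (by simpa using (hc j (hA hj)).1) hx
    · rw [if_neg hj]
      refine Finset.sum_eq_zero fun x hx => s0 x ?_
      simp only [Finset.mem_filter, Finset.mem_univ, true_and] at hx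
      rintro ⟨j', hj', rfl⟩
      have := (hc j' (hA hj')).1.symm.trans hx
      subst this
      exact hj hj'
  intro h0
  have h1 := congrFun h0 σ
  simp only [lowP, if_pos hC, Pi.zero_apply] at h1
  refine absurd h1 (Finset.prod_pos fun x _ => ?_).ne'
  by_cases hx : ∃ j, ∃ hj : j ∈ A, x = c j (hA hj)
  · obtain ⟨j, hj, e⟩ := hx
    exact pow_pos (e ▸ (hc j (hA hj)).2) _
  · rw [s0 x hx, pow_zero]
    exact one_pos

theorem lower (hn : 0 < n) {E : Finset (V × V)} (hE : Irr E) {β lam : ℝ} (hβ : 0 ≤ β)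
    {b : V → Q} {B : Finset Q} {ψ : V → ℝ} (h : Trial E lam b B ψ) :
    (1 + Real.exp (-(β * (n / 2 * lam)))) ^ B.card ≤ ZZ n E β 1 := by
  have e1 : ZZ n E β 1 = trace (exp (β • LL n E)) := by simp [ZZ, trace]
  have key := peierls_disj (κ := B.powerset) ((LL_symm (n := n) E).smul β)
    (fun A => lowP b ψ A.1) (fun A => -(β * (n / 2 * lam)) * A.1.card)
    (fun A => low_ne hn h (Finset.mem_powerset.1 A.2)) ?_ ?_
  · rw [e1]
    refine le_trans (le_of_eq ?_) key
    rw [Finset.sum_coe_sort B.powerset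
      (fun A => Real.exp (-(β * (n / 2 * lam)) * A.card)), ← Finset.prod_const,
      Finset.prod_one_add]
    refine Finset.sum_congr rfl fun A _ => ?_
    rw [Finset.prod_const, ← Real.exp_nat_mul, mul_comm]
  · intro A A' hA σ
    by_cases c1 : lowC b A.1 σ
    · by_cases c2 : lowC b A'.1 σ
      · exfalso
        apply hA
        ext j
        have := (c1 j).symm.trans (c2 j)
        by_cases j1 : j ∈ A.1 <;> by_cases j2 : j ∈ A'.1 <;> simp_all
      · simp [lowP, c2]
    · simp [lowP, c1]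
  · intro A
    rw [smul_mulVec, dotProduct_smul, smul_eq_mul]
    have : -(n / 2 * lam * A.1.card) * (lowP b ψ A.1 ⬝ᵥ (lowP b ψ A.1 : (V → Fin (n + 1)) → ℝ)) ≤
        lowP b ψ A.1 ⬝ᵥ LL n E *ᵥ lowP b ψ A.1 := by
      simp only [dotProduct, Finset.mul_sum]
      refine Finset.sum_le_sum fun σ _ => ?_
      rcases (low_nn h.nn A.1 σ).lt_or_eq with hp | hp
      · have := low_pt hn hE h (Finset.mem_powerset.1 A.2) hp
        nlinarith
      · simp [← hp]
    have := mul_le_mul_of_nonneg_left this hβ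
    linarith

end Vale.Agent.P361
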