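import Vale.Agent.P361.Defs

namespace Vale.Agent.P361

open Matrix NormedSpace Filter Topology

theorem Sin_up {N : ℕ} (x : Box N) (c : Box N) (hc : ∀ i, (c i).val = (x i).val + 1)
    (g : Box N → ℝ) : ∑ e ∈ edges N, (if e.1 = x then g e.2 else 0) =
      ∑ i, g (Function.update x i (c i)) := by
  have e : (edges N).filter (fun e => e.1 = x) =
      Finset.univ.image fun i => (x, Function.update x i (c i)) := by
    ext ⟨a, b⟩
    simp only [edges, Finset.mem_filter, Finset.mem_univ, true_and, Finset.mem_image,
      Prod.mk.injEq]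
    constructor
    · rintro ⟨⟨i, h1, h2⟩, rfl⟩
      refine ⟨i, rfl, funext fun j => ?_⟩
      by_cases h : j = i
      · subst h
        rw [Function.update_self]
        exact Fin.ext ((hc j).trans h1.symm)
      · rw [Function.update_of_ne h, h2 j h]
    · rintro ⟨i, rfl, rfl⟩
      exact ⟨⟨i, by rw [Function.update_self, hc], fun j h => Function.update_of_ne h _ _⟩, rfl⟩
  rw [← Finset.sum_filter, e, Finset.sum_image]
  intro i _ j _ h
  by_contra hij
  have := congrArg (fun e : Box N × Box N => (e.2 i).val) h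
  simp only [Function.update_self, Function.update_of_ne hij, hc] at this
  omega

theorem Sin_dn {N : ℕ} (x : Box N) (c : Box N) (hc : ∀ i, (x i).val = (c i).val + 1)
    (g : Box N → ℝ) : ∑ e ∈ edges N, (if e.2 = x then g e.1 else 0) =
      ∑ i, g (Function.update x i (c i)) := by
  have e : (edges N).filter (fun e => e.2 = x) =
      Finset.univ.image fun i => (Function.update x i (c i), x) := by
    ext ⟨a, b⟩
    simp only [edges, Finset.mem_filter, Finset.mem_univ, true_and, Finset.mem_image,
      Prod.mk.injEq]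
    constructor
    · rintro ⟨⟨i, h1, h2⟩, rfl⟩
      refine ⟨i, funext fun j => ?_, rfl⟩
      by_cases h : j = i
      · subst h
        rw [Function.update_self]
        exact Fin.ext (by have := hc j; omega)
      · rw [Function.update_of_ne h, h2 j h]
    · rintro ⟨i, rfl, rfl⟩
      exact ⟨⟨i, by rw [Function.update_self, hc],
        fun j h => (Function.update_of_ne h _ _).symm⟩, rfl⟩
  rw [← Finset.sum_filter, e, Finset.sum_image]
  intro i _ j _ h
  by_contra hij
  have := congrArg (fun e : Box N × Box N => (e.1 i).val) h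
  simp only [Function.update_self, Function.update_of_ne hij] at this
  have := hc i
  omega

theorem trial (N : ℕ) {l : ℕ} (hl : 2 ≤ l) : ∃ (b : Box N → Fin 3 → ℕ) (B : Finset (Fin 3 → ℕ))
    (ψ : Box N → ℝ), B.card = (2 * N / l) ^ 3 ∧ Trial (edges N) (30 / (l : ℝ) ^ 2) b B ψ := by
  have l0 : 0 < l := by omega
  have l1 : (0 : ℝ) < l := by exact_mod_cast l0
  obtain ⟨θ, hθ⟩ : ∃ θ : ℝ, θ = Real.pi / l := ⟨_, rfl⟩
  have θ0 : 0 < θ := hθ ▸ div_pos Real.pi_pos l1
  have θ1 : θ * l = Real.pi := by rw [hθ]; field_simp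
  let s : Fin (2 * N + 1) → ℝ := fun a => Real.sin (θ * ((a.val % l : ℕ) : ℝ))
  have s0 : ∀ a, 0 ≤ s a := fun a => by
    refine Real.sin_nonneg_of_nonneg_of_le_pi (by positivity) ?_
    rw [← θ1]
    exact mul_le_mul_of_nonneg_left (by exact_mod_cast (Nat.mod_lt _ l0).le) θ0.le
  have p0 : ∀ y : Box N, 0 ≤ ∏ i, s (y i) := fun y => Finset.prod_nonneg fun i _ => s0 _
  have lt : ∀ k, k < 2 * N / l → (k + 1) * l ≤ 2 * N := fun k hk =>
    (Nat.le_div_iff_mul_le l0).1 hk
  refine ⟨fun x i => (x i).val / l, Fintype.piFinset fun _ => Finset.range (2 * N / l),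
    fun x => ∏ i, s (x i), by simp, p0, fun j hj => ?_, fun x hx h0 => ?_⟩
  · have hj' : ∀ i, (j i + 1) * l ≤ 2 * N := fun i =>
      lt _ (Finset.mem_range.1 (Fintype.mem_piFinset.1 hj i))
    refine ⟨fun i => ⟨1 + l * j i, by have := hj' i; nlinarith⟩, funext fun i => ?_,
      Finset.prod_pos fun i _ => ?_⟩
    · show (1 + l * j i) / l = j i
      rw [Nat.add_mul_div_left _ _ l0, Nat.div_eq_of_lt hl, zero_add]
    · show 0 < Real.sin (θ * (((1 + l * j i) % l : ℕ) : ℝ))
      rw [Nat.add_mul_mod_self_left, Nat.mod_eq_of_lt hl, Nat.cast_one, mul_one]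
      refine Real.sin_pos_of_pos_of_lt_pi θ0 ?_
      have : (2 : ℝ) ≤ l := by exact_mod_cast hl
      nlinarith
  · have hx' : ∀ i, ((x i).val / l + 1) * l ≤ 2 * N := fun i =>
      lt _ (Finset.mem_range.1 (Fintype.mem_piFinset.1 hx i))
    have dm : ∀ i, l * ((x i).val / l) + (x i).val % l = x i := fun i => Nat.div_add_mod _ _
    have ml : ∀ i, (x i).val % l < l := fun i => Nat.mod_lt _ l0
    have r0 : ∀ i, 0 < (x i).val % l := fun i => Nat.pos_of_ne_zero fun h =>
      h0.ne' (Finset.prod_eq_zero (Finset.mem_univ i) (by simp [s, h]))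
    let c : Box N := fun i => ⟨(x i).val + 1, by have := hx' i; have := dm i; have := ml i; nlinarith⟩
    let d : Box N := fun i => ⟨(x i).val - 1, by have := (x i).2; omega⟩
    have hd : ∀ i, (x i).val = (d i).val + 1 := fun i => by
      have := r0 i
      have := Nat.mod_le (x i).val l
      show (x i).val = (x i).val - 1 + 1
      omega
    obtain ⟨u, hu⟩ : ∃ u : Box N → ℝ, u = fun y => if (fun i => (y i).val / l) =
      (fun i => (x i).val / l) then ∏ i, s (y i) else 0 := ⟨_, rfl⟩
    have ux : u x = ∏ i, s (x i) := by rw [hu]; simp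
    have u0 : ∀ y, 0 ≤ u y := fun y => by
      rw [hu]
      dsimp only
      split_ifs
      · exact p0 y
      · exact le_rfl
    let P : Fin 3 → ℝ := fun i => ∏ j ∈ Finset.univ.erase i, s (x j)
    have hP : ∀ i, s (x i) * P i = ∏ j, s (x j) := fun i =>
      Finset.mul_prod_erase _ (fun j => s (x j)) (Finset.mem_univ i)
    have hup : ∀ i (a : Fin (2 * N + 1)), a.val / l = (x i).val / l →
        u (Function.update x i a) = s a * P i := fun i a ha => by
      rw [hu]
      dsimp only
      rw [if_pos, ← Finset.mul_prod_erase _ _ (Finset.mem_univ i), Function.update_self]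
      · congr 1
        exact Finset.prod_congr rfl fun j hj => by
          rw [Function.update_of_ne (Finset.ne_of_mem_erase hj)]
      · funext j
        by_cases h : j = i
        · subst h
          rw [Function.update_self, ha]
        · rw [Function.update_of_ne h]
    have h1 : ∀ i, Real.sin (θ * (((x i).val % l : ℕ) : ℝ) + θ) * P i ≤
        u (Function.update x i (c i)) := fun i => by
      by_cases h : (x i).val % l + 1 < l
      · have e := (Nat.div_mod_unique (a := (x i).val + 1) (d := (x i).val / l)
          (c := (x i).val % l + 1) l0).2 ⟨by have := dm i; omega, h⟩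
        rw [hup i (c i) e.1]
        refine le_of_eq ?_
        simp only [s, c, e.2]
        push_cast
        rw [mul_add, mul_one]
      · have e : (((x i).val % l : ℕ) : ℝ) + 1 = l := by
          have : (x i).val % l + 1 = l := by have := ml i; omega
          exact_mod_cast this
        rw [← mul_add_one, e, θ1, Real.sin_pi, zero_mul]
        exact u0 _
    have h2 : ∀ i, u (Function.update x i (d i)) =
        Real.sin (θ * (((x i).val % l : ℕ) : ℝ) - θ) * P i := fun i => by
      have e := (Nat.div_mod_unique (a := (x i).val - 1) (d := (x i).val / l)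
        (c := (x i).val % l - 1) l0).2
        ⟨by have := dm i; have := r0 i; omega, by have := ml i; omega⟩
      rw [hup i (d i) e.1]
      simp only [s, d, e.2]
      rw [Nat.cast_sub (r0 i), Nat.cast_one, mul_sub, mul_one]
    have h3 : 2 - 2 * Real.cos θ ≤ 10 / (l : ℝ) ^ 2 := by
      have := Real.one_sub_sq_div_two_le_cos (x := θ)
      have e : θ ^ 2 ≤ 10 / (l : ℝ) ^ 2 := by
        rw [le_div_iff₀ (by positivity), ← mul_pow, θ1]
        nlinarith [Real.pi_lt_d2, Real.pi_pos]
      linarith
    rw [← hu, lap, Finset.sum_add_distrib, Sin_up x c (fun _ => rfl) fun y => u y - u x,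
      Sin_dn x d hd fun y => u y - u x, ← Finset.sum_add_distrib]
    refine le_trans (le_of_eq ?_) (Finset.sum_le_sum
      (f := fun _ => -(10 / (l : ℝ) ^ 2) * ∏ i, s (x i)) fun i _ => ?_)
    · simp only [Finset.sum_const, Finset.card_univ, Fintype.card_fin, nsmul_eq_mul]
      ring
    · have k1 := h1 i
      have k2 := mul_le_mul_of_nonneg_right h3 h0.le
      rw [h2, ux]
      rw [← hP i] at k2 ⊢
      rw [Real.sin_add] at k1
      rw [Real.sin_sub]
      simp only [s] at k2 ⊢
      nlinarith

end Vale.Agent.P361
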