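import Vale.Agent.P361.Lig

namespace Vale.Agent.P361

open Matrix NormedSpace Filter Topology

variable {V Q : Type} [Fintype V] [DecidableEq V] [Fintype Q] [DecidableEq Q] {n : ℕ}

theorem up_geom {A : ℝ} (h0 : 0 ≤ A) (h1 : A < 1) (m : ℕ) : ∑ i : Fin m, A ^ i.val ≤ (1 - A)⁻¹ := by
  rw [Fin.sum_univ_eq_sum_range (fun i => A ^ i) m, ← tsum_geometric_of_lt_one h0 h1]
  exact (summable_geometric_of_lt_one h0 h1).sum_le_tsum _ fun i _ => pow_nonneg h0 i

theorem up_fac {s n : ℕ} (h : s ≤ n) : (1 : ℝ) ≤ (n : ℝ) ^ s / s.factorial := by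
  rw [le_div_iff₀ (by positivity), one_mul]
  exact_mod_cast (Nat.factorial_le_pow s).trans (Nat.pow_le_pow_left h s)

omit [DecidableEq V] in
theorem up_exp (b : V → Q) {R : ℕ} (hR : ∀ j, (Finset.univ.filter fun x => b x = j).card ≤ R)
    (k : Q → ℕ) : ∏ x, Real.exp ((k (b x) : ℝ) / R) ≤ ∏ j, (3 : ℝ) ^ k j := by
  rw [← Finset.prod_fiberwise Finset.univ b]
  refine Finset.prod_le_prod (fun j _ => Finset.prod_nonneg fun x _ => (Real.exp_pos _).le)
    fun j _ => ?_
  rw [Finset.prod_congr rfl (g := fun _ => Real.exp ((k j : ℝ) / R))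
    (fun x hx => by rw [(Finset.mem_filter.1 hx).2]), Finset.prod_const, ← Real.exp_nat_mul]
  have h1 : ((Finset.univ.filter fun x => b x = j).card : ℝ) * ((k j : ℝ) / R) ≤ k j * 1 := by
    have h2 : ((Finset.univ.filter fun x => b x = j).card : ℝ) / R ≤ 1 :=
      div_le_one_of_le₀ (by exact_mod_cast hR j) (Nat.cast_nonneg _)
    calc _ = (k j : ℝ) * (((Finset.univ.filter fun x => b x = j).card : ℝ) / R) := by ring
      _ ≤ _ := mul_le_mul_of_nonneg_left h2 (Nat.cast_nonneg _)
  refine (Real.exp_le_exp.2 h1).trans ?_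
  rw [Real.exp_nat_mul]
  exact pow_le_pow_left₀ (Real.exp_pos _).le (Real.exp_one_lt_d9.le.trans (by norm_num)) _

theorem count_le (b : V → Q) {R : ℕ} (hR : ∀ j, (Finset.univ.filter fun x => b x = j).card ≤ R)
    {w : ℝ} (hw : 0 ≤ w) (h1 : 3 * n * R * w < 1) :
    ∑ σ : V → Fin (n + 1), ∏ x,
      (w * ∑ y ∈ Finset.univ.filter fun y => b y = b x, ((σ y).val : ℝ)) ^ (σ x).val ≤
      (1 - 3 * n * R * w)⁻¹ ^ Fintype.card Q := by
  set A : ℝ := n * R * w with hA
  have A0 : 0 ≤ A := by positivity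
  have eA : 3 * n * R * w = 3 * A := by rw [hA]; ring
  rw [eA] at h1 ⊢
  have hK : ∀ (σ : V → Fin (n + 1)) (j : Q),
      ∑ y ∈ Finset.univ.filter (fun y => b y = j), (σ y).val < n * R + 1 := by
    intro σ j
    have h2 := Finset.sum_le_card_nsmul (Finset.univ.filter fun y => b y = j)
      (fun y => (σ y).val) n fun y _ => Nat.lt_succ_iff.1 (σ y).2
    rw [smul_eq_mul] at h2
    have h3 := Nat.mul_le_mul_right n (hR j)
    rw [Nat.mul_comm R n] at h3
    omega
  let T : (Q → Fin (n * R + 1)) → (V → Fin (n + 1)) → ℝ := fun k σ =>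
    (∏ j, A ^ (k j).val) * ∏ x, (((k (b x)).val : ℝ) / R) ^ (σ x).val / (σ x).val.factorial
  have T0 : ∀ k σ, 0 ≤ T k σ := fun k σ =>
    mul_nonneg (Finset.prod_nonneg fun j _ => by positivity)
      (Finset.prod_nonneg fun x _ => by positivity)
  have s1 : ∀ σ : V → Fin (n + 1), ∏ x,
      (w * ∑ y ∈ Finset.univ.filter fun y => b y = b x, ((σ y).val : ℝ)) ^ (σ x).val ≤
      ∑ k, T k σ := by
    intro σ
    refine le_trans ?_ (Finset.single_le_sum (f := fun k => T k σ) (fun k _ => T0 k σ)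
      (Finset.mem_univ fun j => ⟨_, hK σ j⟩))
    have e1 : ∏ j, A ^ (∑ y ∈ Finset.univ.filter (fun y => b y = j), (σ y).val) =
        ∏ x, A ^ (σ x).val := by
      rw [Finset.prod_pow_eq_pow_sum, Finset.prod_pow_eq_pow_sum, Finset.sum_fiberwise]
    simp only [T]
    rw [e1, ← Finset.prod_mul_distrib]
    refine Finset.prod_le_prod (fun x _ => by positivity) fun x _ => ?_
    rw [← Nat.cast_sum]
    have hk := hK σ (b x)
    generalize ∑ y ∈ Finset.univ.filter (fun y => b y = b x), (σ y).val = K at hk ⊢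
    have e2 : (K : ℝ) = R * ((K : ℝ) / R) := by
      rcases Nat.eq_zero_or_pos R with h0 | h0
      · have : K = 0 := by
          rw [h0] at hk
          omega
        simp [this]
      · have : (R : ℝ) ≠ 0 := by positivity
        field_simp
    have h3 := up_fac (Nat.lt_succ_iff.1 (σ x).2)
    generalize (σ x).val = s at h3 ⊢
    have r0 : 0 ≤ (K : ℝ) / R := by positivity
    rw [hA]
    conv_lhs => rw [e2]
    generalize (K : ℝ) / R = r at r0 ⊢
    calc (w * (R * r)) ^ s = (w * (R * r)) ^ s * 1 := (mul_one _).symm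
      _ ≤ (w * (R * r)) ^ s * ((n : ℝ) ^ s / s.factorial) :=
        mul_le_mul_of_nonneg_left h3 (by positivity)
      _ = _ := by simp only [mul_pow]; ring
  have s2 : ∀ k, ∑ σ, T k σ ≤ ∏ j, (3 * A) ^ (k j).val := by
    intro k
    simp only [T, mul_pow]
    rw [← Finset.mul_sum, Finset.prod_mul_distrib, mul_comm]
    refine mul_le_mul_of_nonneg_right ?_ (Finset.prod_nonneg fun j _ => by positivity)
    refine le_trans ?_ (up_exp b hR fun j => (k j).val)
    rw [← Fintype.piFinset_univ, ← Finset.prod_univ_sum (fun _ => Finset.univ)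
      (fun x (s : Fin (n + 1)) => (((k (b x)).val : ℝ) / R) ^ s.val / s.val.factorial)]
    refine Finset.prod_le_prod (fun x _ => Finset.sum_nonneg fun s _ => by positivity)
      fun x _ => ?_
    rw [Fin.sum_univ_eq_sum_range (fun s => (((k (b x)).val : ℝ) / R) ^ s / s.factorial) (n + 1)]
    exact Real.sum_le_exp_of_nonneg (by positivity) _
  refine (Finset.sum_le_sum fun σ _ => s1 σ).trans ?_
  rw [Finset.sum_comm]
  refine (Finset.sum_le_sum fun k _ => s2 k).trans ?_
  rw [← Fintype.piFinset_univ, ← Finset.prod_univ_sum (fun _ => Finset.univ)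
    (fun (_ : Q) (i : Fin (n * R + 1)) => (3 * A) ^ i.val), Finset.prod_const, Finset.card_univ]
  exact pow_le_pow_left₀ (Finset.sum_nonneg fun i _ => by positivity)
    (up_geom (by positivity) h1 _) _

omit [Fintype V] in
theorem up_lap (E : Finset (V × V)) (S : Finset V) (f : V → V → ℝ) (x : V) :
    lap E (fun x => ∑ y ∈ S, f x y) x = ∑ y ∈ S, lap E (fun x => f x y) x := by
  simp only [lap]
  rw [Finset.sum_comm]
  refine Finset.sum_congr rfl fun e _ => ?_
  split_ifs <;> simp [Finset.sum_add_distrib, Finset.sum_sub_distrib]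

theorem upper {E : Finset (V × V)} (hE : Irr E) {t ε z : ℝ} (ht : 0 ≤ t) (hε : 0 ≤ ε) (hz : 0 ≤ z)
    {b : V → Q} {q : ℝ → V → V → ℝ} (hq : Ker E ((n : ℝ) / 2) t ε b q) {R : ℕ}
    (hR : ∀ j, (Finset.univ.filter fun x => b x = j).card ≤ R) (h1 : 3 * n * R * (z * ε) < 1) :
    ZZ n E t z ≤ (1 - 3 * n * R * (z * ε))⁻¹ ^ Fintype.card Q := by
  refine le_trans (Finset.sum_le_sum fun σ _ => ?_) (count_le b hR (mul_nonneg hz hε) h1)
  have hl := liggett hE ht
    (fun s x => ∑ y ∈ Finset.univ.filter (fun y => 0 < (σ y).val), q s x y)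
    (fun s x hs => Finset.sum_nonneg fun y _ => hq.nn s x y hs)
    (fun s x => by
      rw [up_lap, Finset.mul_sum]
      exact HasDerivAt.fun_sum fun y _ => hq.der s x y) σ
    (fun x hx => by
      rw [← hq.one x]
      exact Finset.single_le_sum (f := fun y => q 0 x y) (fun y _ => hq.nn 0 x y le_rfl)
        (Finset.mem_filter.2 ⟨Finset.mem_univ _, hx⟩))
  refine (mul_le_mul_of_nonneg_left hl (pow_nonneg hz _)).trans ?_
  rw [num, ← Finset.prod_pow_eq_pow_sum, ← Finset.prod_mul_distrib]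
  have u0 : ∀ x, 0 ≤ ∑ y ∈ Finset.univ.filter (fun y => 0 < (σ y).val), q t x y :=
    fun x => Finset.sum_nonneg fun y _ => hq.nn t x y ht
  refine Finset.prod_le_prod (fun x _ => mul_nonneg (pow_nonneg hz _) (pow_nonneg (u0 x) _))
    fun x _ => ?_
  rw [← mul_pow, mul_assoc]
  refine pow_le_pow_left₀ (mul_nonneg hz (u0 x)) (mul_le_mul_of_nonneg_left ?_ hz) _
  rw [Finset.mul_sum, Finset.sum_filter, Finset.sum_filter]
  refine Finset.sum_le_sum fun y _ => ?_
  have hb := hq.bd x y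
  by_cases h2 : 0 < (σ y).val
  · rw [if_pos h2]
    refine hb.trans ?_
    by_cases h3 : b y = b x
    · rw [if_pos h3, if_pos h3.symm]
      exact le_mul_of_one_le_right hε (by exact_mod_cast h2)
    · rw [if_neg h3, if_neg fun h => h3 h.symm]
  · rw [if_neg h2]
    split_ifs
    · positivity
    · exact le_rfl

end Vale.Agent.P361
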