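import Vale.Agent.P361.Ham
import Vale.Agent.P361.Up
import Vale.Agent.P361.K3
import Vale.Agent.P361.Low
import Vale.Agent.P361.Sin

namespace Vale.Agent.P361

open Matrix NormedSpace Filter Topology

theorem Fin_up {n N l : ℕ} (hn : 0 < n) (hl : 0 < l) (hN : l ≤ N) {β z a : ℝ} (hβ : 0 ≤ β)
    (ht : (l : ℝ) ^ 2 ≤ n / 2 * β) (hz : 0 < z) (ha : 0 ≤ a) (h : 1 - 648 * n * z = Real.exp (-a)) :
    Real.log (ZZ n (edges N) β z) ≤ a * ((2 * N + 1) ^ 3 / (l : ℝ) ^ 3) := by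
  have hn' : (0 : ℝ) < n := by exact_mod_cast hn
  have hl' : (0 : ℝ) < l := by exact_mod_cast hl
  obtain ⟨b, E, q, hE, hR, hq⟩ := ker_three (N := N) hl (by omega) (half_pos hn') ht
  have e : 3 * (n : ℝ) * (((2 * l) ^ 3 : ℕ) : ℝ) * (z * (3 / l) ^ 3) = 648 * n * z := by
    push_cast
    field_simp
    norm_num
  have h1 := upper (fun x hx => irr_edges N x (hE hx)) hβ (by positivity) hz.le hq hR
    (by rw [e]; linarith [Real.exp_pos (-a)])
  rw [e, h, ← Real.exp_neg, neg_neg, ← Real.exp_nat_mul] at h1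
  refine (Real.log_le_iff_le_exp (ZZ_pos (irr_edges N) β hz)).2
    ((ZZ_mono (irr_edges N) hE hβ hz).trans (h1.trans (Real.exp_le_exp.2 ?_)))
  rw [mul_comm]
  refine mul_le_mul_of_nonneg_left ?_ ha
  have h2 : ((((2 * N + 1) / l : ℕ)) : ℝ) ≤ (2 * N + 1) / l := by
    have := @Nat.cast_div_le ℝ _ _ _ (2 * N + 1) l
    push_cast at this
    exact this
  simp only [Fintype.card_fun, Fintype.card_fin]
  push_cast
  rw [← div_pow]
  exact pow_le_pow_left₀ (by positivity) h2 3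

theorem Fin_low {n N l : ℕ} (hn : 0 < n) (hl : 2 ≤ l) (hN : l ≤ N) {β : ℝ} (hβ : 0 ≤ β)
    (ht : n / 2 * β ≤ ((l : ℝ) + 1) ^ 2) :
    Real.log (1 + Real.exp (-68)) / 8 * ((2 * N + 1) ^ 3 / (l : ℝ) ^ 3) ≤
      Real.log (ZZ n (edges N) β 1) := by
  have hl' : (2 : ℝ) ≤ l := by exact_mod_cast hl
  obtain ⟨b, B, ψ, hB, hT⟩ := trial N hl
  have h1 := lower hn (irr_edges N) hβ hT
  have h2 : β * (n / 2 * (30 / (l : ℝ) ^ 2)) ≤ 68 := by
    rw [show β * (n / 2 * (30 / (l : ℝ) ^ 2)) = 30 * (n / 2 * β) / l ^ 2 by ring,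
      div_le_iff₀ (by positivity)]
    nlinarith
  have h3 : (1 + Real.exp (-68)) ^ B.card ≤ ZZ n (edges N) β 1 :=
    (pow_le_pow_left₀ (by positivity) (by gcongr) _).trans h1
  have h4 := Real.log_le_log (by positivity) h3
  rw [Real.log_pow, hB] at h4
  refine le_trans ?_ h4
  have h5 : 0 ≤ Real.log (1 + Real.exp (-68)) :=
    Real.log_nonneg (by linarith [Real.exp_pos (-68)])
  have h6 : (2 * N + 1 : ℝ) / (2 * l) ≤ ((2 * N / l : ℕ) : ℝ) := by
    rw [div_le_iff₀ (by positivity)]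
    have k1 := Nat.div_add_mod (2 * N) l
    have k2 := Nat.mod_lt (2 * N) (show 0 < l by omega)
    have k3 : 2 * N + 1 ≤ 2 * N / l * (2 * l) := by nlinarith
    exact_mod_cast k3
  have h7 := pow_le_pow_left₀ (by positivity) h6 3
  push_cast
  calc _ = ((2 * N + 1 : ℝ) / (2 * l)) ^ 3 * Real.log (1 + Real.exp (-68)) := by
        field_simp
        norm_num
    _ ≤ _ := mul_le_mul_of_nonneg_right h7 h5

theorem bloch {n : ℕ} (hn : 0 < n) : ∃ c : ℝ, 0 < c ∧ ∃ β₀ : ℝ, ∀ β, β₀ ≤ β → ∀ p : ℝ → ℝ,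
    (∀ h, Tendsto (press n β h) atTop (𝓝 (p h))) → ∀ m, HasDerivWithinAt p m (Set.Ici 0) 0 →
      c ≤ β ^ (3 / 2 : ℝ) * ((n : ℝ) / 2 - m) := by
  have hn' : (1 : ℝ) ≤ n := by exact_mod_cast hn
  obtain ⟨a, ha⟩ : ∃ a, a = Real.log (1 + Real.exp (-68)) := ⟨_, rfl⟩
  have a0 : 0 < a := ha ▸ Real.log_pos (by linarith [Real.exp_pos (-68)])
  have d0 : Real.exp (-(a / 16)) < 1 := Real.exp_lt_one_iff.2 (by linarith)
  obtain ⟨z, hz⟩ : ∃ z, z = (1 - Real.exp (-(a / 16))) / (648 * n) := ⟨_, rfl⟩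
  have z0 : 0 < z := hz ▸ div_pos (by linarith) (by positivity)
  have z2 : 1 - 648 * n * z = Real.exp (-(a / 16)) := by
    rw [hz]
    field_simp
    ring
  have z1 : z < 1 := by nlinarith [Real.exp_pos (-(a / 16))]
  obtain ⟨t, ht⟩ : ∃ t, t = -Real.log z := ⟨_, rfl⟩
  have t0 : 0 < t := ht ▸ neg_pos.2 (Real.log_neg z0 z1)
  have t1 : Real.exp (-t) = z := by rw [ht, neg_neg, Real.exp_log z0]
  refine ⟨a / (16 * t * n ^ 3), by positivity, 8, fun β hβ p hp m hm => ?_⟩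
  have β0 : 0 < β := by linarith
  obtain ⟨l, hl⟩ : ∃ l : ℕ, l = ⌊Real.sqrt (n / 2 * β)⌋₊ := ⟨_, rfl⟩
  have τ0 : (4 : ℝ) ≤ n / 2 * β := by nlinarith
  have l2 : 2 ≤ l := by
    rw [hl]
    exact Nat.le_floor (Real.le_sqrt_of_sq_le (by push_cast; linarith))
  have l2' : (2 : ℝ) ≤ l := by exact_mod_cast l2
  have l3 : (l : ℝ) ^ 2 ≤ n / 2 * β := by
    rw [← Real.le_sqrt (by positivity) (by positivity), hl]
    exact Nat.floor_le (Real.sqrt_nonneg _)
  have l4 : n / 2 * β ≤ ((l : ℝ) + 1) ^ 2 := by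
    rw [← Real.sqrt_le_left (by positivity), hl]
    exact (Nat.lt_floor_add_one _).le
  have key : ∀ h, 0 < h → h ≤ t / β → p h - p 0 ≤ h * (n / 2 - a / (16 * t * l ^ 3)) := by
    intro h h0 h1
    refine le_of_tendsto ((hp h).sub (hp 0)) (eventually_atTop.2 ⟨l, fun N hN => ?_⟩)
    have u1 := Fin_up hn (by omega) hN β0.le l3 z0 (by positivity) z2
    have u2 := Fin_low hn l2 hN β0.le l4
    have θ1 : h * β / t ≤ 1 := by
      rw [div_le_one t0]
      exact (le_div_iff₀ β0).1 h1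
    have θ0 : 0 ≤ h * β / t := by positivity
    have u3 := ZZ_hold (n := n) (irr_edges N) β0.le (-t) θ0 θ1
    rw [t1, show h * β / t * -t = -(β * h) by field_simp] at u3
    rw [press_eq n N β0, press_eq n N β0, mul_zero, neg_zero, Real.exp_zero, ← ha] at *
    have M0 : (0 : ℝ) < (2 * N + 1) ^ 3 := by positivity
    generalize ((2 * N + 1 : ℝ)) ^ 3 = M at *
    generalize Real.log (ZZ n (edges N) β 1) = A at *
    generalize Real.log (ZZ n (edges N) β z) = B at *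
    generalize Real.log (ZZ n (edges N) β (Real.exp (-(β * h)))) = C at *
    have u4 : C - A ≤ h * β / t * (-(a / 16) * (M / l ^ 3)) := by
      have := mul_le_mul_of_nonneg_left (show B - A ≤ -(a / 16) * (M / l ^ 3) by linarith) θ0
      linarith
    have u5 := div_le_div_of_nonneg_right u4 (mul_pos β0 M0).le
    have u6 : h * β / t * (-(a / 16) * (M / l ^ 3)) / (β * M) = -(h * (a / (16 * t * l ^ 3))) := by
      field_simp
    rw [u6, sub_div] at u5
    linarith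
  have hm' : m ≤ n / 2 - a / (16 * t * l ^ 3) := by
    rw [hasDerivWithinAt_iff_tendsto_slope, Set.Ici_sdiff_left] at hm
    refine le_of_tendsto hm ?_
    filter_upwards [Ioc_mem_nhdsGT (div_pos t0 β0)] with h hh
    rw [slope_def_field, sub_zero, div_le_iff₀ hh.1, mul_comm]
    exact key h hh.1 hh.2
  have s1 : β ^ (3 / 2 : ℝ) = Real.sqrt β ^ 3 := by
    rw [Real.sqrt_eq_rpow, ← Real.rpow_natCast, ← Real.rpow_mul β0.le]
    norm_num
  have s2 : (l : ℝ) ≤ Real.sqrt β * n := by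
    refine (pow_le_pow_iff_left₀ (by positivity) (by positivity) two_ne_zero).1 ?_
    rw [mul_pow, Real.sq_sqrt β0.le]
    nlinarith [mul_le_mul_of_nonneg_left hn' β0.le, mul_nonneg β0.le (sub_nonneg.2 hn')]
  have s3 := pow_le_pow_left₀ (by positivity) s2 3
  have s4 : 0 < Real.sqrt β := Real.sqrt_pos.2 β0
  rw [s1]
  calc a / (16 * t * n ^ 3) = Real.sqrt β ^ 3 * (a / (16 * t * (Real.sqrt β * n) ^ 3)) := by
        field_simp
    _ ≤ Real.sqrt β ^ 3 * (a / (16 * t * l ^ 3)) := by gcongr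
    _ ≤ _ := by gcongr; linarith

end Vale.Agent.P361
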