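import Vale.Agent.P361.Def2

namespace Vale.Agent.P361

open Matrix NormedSpace Filter Topology

lemma gau_sum (G : ℝ → ℝ) (hG : ∀ x, G (-x) = G x) (N : ℕ) :
    ∑ r : Fin (2 * N + 1), G ((r.val : ℝ) - N) = 2 * ∑ j ∈ Finset.range (N + 1), G j - G 0 := by
  rw [Fin.sum_univ_eq_sum_range (fun r => G ((r : ℝ) - N)) (2 * N + 1),
    show 2 * N + 1 = N + (N + 1) by ring, Finset.sum_range_add, ← Finset.sum_range_reflect]
  have h1 : ∑ j ∈ Finset.range N, G (((N - 1 - j : ℕ) : ℝ) - N)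
      = ∑ j ∈ Finset.range N, G ((j + 1 : ℕ) : ℝ) := by
    refine Finset.sum_congr rfl fun j hj => ?_
    have hj' := Finset.mem_range.1 hj
    rw [← hG]
    congr 1
    have : ((N - 1 - j : ℕ) : ℝ) + (j + 1 : ℕ) = N := by
      exact_mod_cast (by omega : N - 1 - j + (j + 1) = N)
    linarith
  have h2 : ∑ j ∈ Finset.range (N + 1), G (((N + j : ℕ) : ℝ) - N)
      = ∑ j ∈ Finset.range (N + 1), G j := by
    refine Finset.sum_congr rfl fun j _ => ?_
    congr 1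
    push_cast
    ring
  rw [h1, h2]
  have h3 := Finset.sum_range_succ' (fun j : ℕ => G j) N
  simp only [Nat.cast_zero] at h3
  linarith

lemma gau_int {c : ℝ} (hc : 0 < c) (N : ℕ) :
    c⁻¹ * ∫ x in (0 : ℝ)..c * (N + 1), Real.exp (-1 * x ^ 2)
      ≤ ∑ j ∈ Finset.range (N + 1), Real.exp (-1 * (c * j) ^ 2) := by
  have h1 : AntitoneOn (fun t : ℝ => Real.exp (-1 * (c * t) ^ 2))
      (Set.Icc (0 : ℝ) (0 + ((N + 1 : ℕ) : ℝ))) := by
    intro a ha b _ hab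
    refine Real.exp_le_exp.2 ?_
    have := pow_le_pow_left₀ (mul_nonneg hc.le ha.1) (mul_le_mul_of_nonneg_left hab hc.le) 2
    linarith
  have h2 := h1.integral_le_sum
  rw [intervalIntegral.integral_comp_mul_left (fun x => Real.exp (-1 * x ^ 2)) hc.ne'] at h2
  simpa using h2

theorem gauss {δ : ℝ} (hδ : 0 < δ) : ∃ γ₀ : ℝ, 0 < γ₀ ∧ ∀ γ, γ₀ ≤ γ → ∀ᶠ N : ℕ in atTop,
    (1 - δ) / Real.sqrt (4 * Real.pi * γ) ≤
      (∑ r, Real.exp (-(γ * wv N r ^ 2))) / (2 * N + 1) := by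
  have hπ := Real.pi_pos
  have hs : 0 < Real.sqrt Real.pi := Real.sqrt_pos.2 hπ
  have t1 := MeasureTheory.intervalIntegral_tendsto_integral_Ioi
    (f := fun x : ℝ => Real.exp (-1 * x ^ 2)) (μ := MeasureTheory.volume) (l := atTop)
    (b := fun T : ℝ => T) 0 (integrable_exp_neg_mul_sq one_pos).integrableOn tendsto_id
  rw [integral_gaussian_Ioi, div_one] at t1
  have t2 := t1.eventually (lt_mem_nhds
    (show (1 - δ / 2) * (Real.sqrt Real.pi / 2) < Real.sqrt Real.pi / 2 by nlinarith))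
  obtain ⟨T, hT⟩ := eventually_atTop.1 t2
  refine ⟨(max T 1) ^ 2, by positivity, fun γ hγ => ?_⟩
  have hm : (0 : ℝ) < max T 1 := by positivity
  have hγ0 : 0 < γ := lt_of_lt_of_le (by positivity) hγ
  have hg : max T 1 ≤ Real.sqrt γ := Real.le_sqrt_of_sq_le hγ
  have hg0 : 0 < Real.sqrt γ := Real.sqrt_pos.2 hγ0
  have hq : Real.sqrt (4 * Real.pi * γ) = 2 * Real.sqrt Real.pi * Real.sqrt γ := by
    rw [Real.sqrt_mul (by positivity), Real.sqrt_mul (by norm_num),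
      show (4 : ℝ) = 2 ^ 2 by norm_num, Real.sqrt_sq (by norm_num)]
  filter_upwards [tendsto_natCast_atTop_atTop (R := ℝ) |>.eventually_ge_atTop
    (2 * Real.sqrt Real.pi * Real.sqrt γ / δ)] with N hN
  have hM : (0 : ℝ) < 2 * N + 1 := by positivity
  obtain ⟨c, hc⟩ : ∃ c, c = Real.sqrt γ * (2 * Real.pi) / (2 * N + 1) := ⟨_, rfl⟩
  have hc0 : 0 < c := by rw [hc]; positivity
  have e1 : ∑ r, Real.exp (-(γ * wv N r ^ 2))
      = ∑ r : Fin (2 * N + 1), Real.exp (-1 * (c * ((r.val : ℝ) - N)) ^ 2) := by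
    refine Finset.sum_congr rfl fun r _ => ?_
    congr 1
    have : c * ((r.val : ℝ) - N) = Real.sqrt γ * wv N r := by
      rw [hc, wv]; ring
    rw [this, mul_pow, Real.sq_sqrt hγ0.le]
    ring
  have e2 := gau_sum (fun t => Real.exp (-1 * (c * t) ^ 2)) (fun t => by simp) N
  simp only [mul_zero, ne_eq, OfNat.ofNat_ne_zero, not_false_eq_true, zero_pow,
    Real.exp_zero] at e2
  have e3 := gau_int hc0 N
  have e4 : T ≤ c * (N + 1) := by
    refine (le_max_left T 1).trans (hg.trans ?_)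
    rw [hc, div_mul_eq_mul_div, le_div_iff₀ hM, mul_assoc]
    refine mul_le_mul_of_nonneg_left ?_ hg0.le
    have := Real.pi_gt_three
    have : (0 : ℝ) ≤ N := Nat.cast_nonneg N
    nlinarith
  have e5 := mul_le_mul_of_nonneg_left (hT _ e4).le (inv_pos.2 hc0).le
  have e6 : c⁻¹ * ((1 - δ / 2) * (Real.sqrt Real.pi / 2))
      = (1 - δ / 2) * (2 * N + 1) / (2 * (2 * Real.sqrt Real.pi * Real.sqrt γ)) := by
    rw [hc]
    field_simp
    rw [Real.sq_sqrt hπ.le, mul_comm]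
  rw [e1, e2, hq, le_div_iff₀ hM]
  obtain ⟨D, hD⟩ : ∃ D, D = 2 * Real.sqrt Real.pi * Real.sqrt γ := ⟨_, rfl⟩
  rw [← hD] at hN e6 ⊢
  have hD0 : 0 < D := by rw [hD]; positivity
  have e7 : (1 - δ) / D * (2 * N + 1) ≤ 2 * ((1 - δ / 2) * (2 * N + 1) / (2 * D)) - 1 := by
    rw [div_le_iff₀ hδ] at hN
    have : 2 * ((1 - δ / 2) * (2 * (N : ℝ) + 1) / (2 * D)) - 1 - (1 - δ) / D * (2 * N + 1)
        = (δ / 2 * (2 * N + 1) - D) / D := by field_simp; ring
    have h2 : 0 ≤ (δ / 2 * (2 * (N : ℝ) + 1) - D) / D := div_nonneg (by nlinarith) hD0.le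
    linarith
  linarith

end Vale.Agent.P361
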