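import Vale.Agent.P361.Ham
import Vale.Agent.P361.Def2

namespace Vale.Agent.P361

open Matrix NormedSpace Filter Topology

theorem tan_TT {V : Type} [Fintype V] [DecidableEq V] {n : ℕ} {E : Finset (V × V)} (hE : Irr E)
    (β μ : ℝ) (d : (V → Fin (n + 1)) → ℝ) :
    TT (XX n E β μ) (diagonal d) =
      ∑ σ, Real.exp (μ * num σ) * exp (β • LL n E) σ σ * d σ := by
  have c : Commute (β • LL n E) (diagonal fun σ : V → Fin (n + 1) => μ * num σ) := by
    ext i j
    rw [mul_diagonal, diagonal_mul]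
    by_cases e : num i = num j
    · rw [e, mul_comm]
    · rw [Matrix.smul_apply, LL_num hE i j e, smul_zero, zero_mul, mul_zero]
  rw [TT, XX, Matrix.exp_add_of_commute _ _ c, pos_diag, trace]
  exact Finset.sum_congr rfl fun i _ => by
    rw [diag_apply, mul_diagonal, mul_diagonal, mul_comm (Real.exp _)]

theorem tangent (n N : ℕ) {β : ℝ} (hβ : 0 < β) (h : ℝ) :
    press n β h N - press n β 0 N ≤ h * magN n N β h := by
  have hE := irr_edges N
  set W : (Box N → Fin (n + 1)) → ℝ := fun σ =>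
    Real.exp (-(β * h) * num σ) * exp (β • LL n (edges N)) σ σ with hW
  have hW0 : ∀ σ, 0 ≤ W σ := fun σ =>
    mul_nonneg (Real.exp_pos _).le (exp_nn (LL_off _) hβ.le _ _)
  have e1 : ZZ n (edges N) β (Real.exp (-(β * h))) = ∑ σ, W σ := by
    unfold ZZ
    refine Finset.sum_congr rfl fun σ _ => ?_
    rw [hW, ← Real.exp_nat_mul, mul_comm (num σ : ℝ)]
  have e0 : ZZ n (edges N) β (Real.exp (-(β * 0))) = ∑ σ, W σ * Real.exp (β * h * num σ) := by
    unfold ZZ
    refine Finset.sum_congr rfl fun σ _ => ?_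
    simp only [hW]
    rw [mul_right_comm, ← Real.exp_add]
    simp
  have hZ : 0 < ∑ σ, W σ := e1 ▸ ZZ_pos hE β (Real.exp_pos _)
  set Z := ∑ σ, W σ with hZdef
  set A := ∑ σ, W σ * (num σ : ℝ) with hA
  have hM : (0 : ℝ) < (2 * N + 1) ^ 3 := by positivity
  have hc : (Fintype.card (Box N) : ℝ) = (2 * N + 1) ^ 3 := by simp
  have e2 : TT (XX n (edges N) β (-(β * h))) 1 = Z := by
    rw [← diagonal_one, tan_TT hE]
    exact Finset.sum_congr rfl fun σ _ => mul_one _
  have e3 : ∑ x, TT (XX n (edges N) β (-(β * h))) (zed n x) =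
      (2 * N + 1) ^ 3 * (n / 2) * Z - A := by
    simp only [zed, tan_TT hE]
    rw [Finset.sum_comm, hZdef, hA, Finset.mul_sum, ← Finset.sum_sub_distrib]
    refine Finset.sum_congr rfl fun σ _ => ?_
    rw [← Finset.mul_sum, Finset.sum_sub_distrib, Finset.sum_const, Finset.card_univ,
      nsmul_eq_mul, hc]
    have : ∑ x, ((σ x).val : ℝ) = num σ := by simp [num]
    rw [this]
    simp only [hW]
    ring
  have hJ : Real.exp (β * h * (A / Z)) * Z ≤ ∑ σ, W σ * Real.exp (β * h * num σ) := by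
    have h1 : ∀ σ, W σ * (Real.exp (β * h * (A / Z)) * (1 + β * h * num σ - β * h * (A / Z))) ≤
        W σ * Real.exp (β * h * num σ) := by
      intro σ
      refine mul_le_mul_of_nonneg_left ?_ (hW0 σ)
      have h2 := Real.add_one_le_exp (β * h * num σ - β * h * (A / Z))
      have h3 : Real.exp (β * h * num σ) = Real.exp (β * h * (A / Z)) *
          Real.exp (β * h * num σ - β * h * (A / Z)) := by
        rw [← Real.exp_add]; congr 1; ring
      rw [h3]
      exact mul_le_mul_of_nonneg_left (by linarith) (Real.exp_pos _).le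
    refine le_trans (le_of_eq ?_) (Finset.sum_le_sum fun σ _ => h1 σ)
    have h4 : ∀ σ, W σ * (Real.exp (β * h * (A / Z)) * (1 + β * h * num σ - β * h * (A / Z))) =
        Real.exp (β * h * (A / Z)) * (1 - β * h * (A / Z)) * W σ +
          Real.exp (β * h * (A / Z)) * (β * h) * (W σ * num σ) := fun σ => by ring
    simp only [h4]
    rw [Finset.sum_add_distrib, ← Finset.mul_sum, ← Finset.mul_sum, ← hZdef, ← hA]
    field_simp
    ring
  have hL : β * h * (A / Z) + Real.log Z ≤ Real.log (∑ σ, W σ * Real.exp (β * h * num σ)) := by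
    have := Real.log_le_log (by positivity) hJ
    rwa [Real.log_mul (Real.exp_pos _).ne' hZ.ne', Real.log_exp] at this
  rw [press_eq n N hβ, press_eq n N hβ, e1, e0, magN, e2, e3]
  set Y := Real.log (∑ σ, W σ * Real.exp (β * h * num σ))
  have h5 : (Real.log Z - Y) / (β * (2 * N + 1) ^ 3) ≤
      -(β * h * (A / Z)) / (β * (2 * N + 1) ^ 3) :=
    div_le_div_of_nonneg_right (by linarith) (by positivity)
  have h6 : h * (((2 * N + 1) ^ 3 * (n / 2) * Z - A) / ((2 * N + 1) ^ 3 * Z)) =
      h * n / 2 + -(β * h * (A / Z)) / (β * (2 * N + 1) ^ 3) := by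
    field_simp
    ring
  rw [h6]
  rw [sub_div] at h5
  linarith

end Vale.Agent.P361
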