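import Vale.Agent.P361.Fin2

namespace Vale.Agent.P361

open Matrix NormedSpace Filter Topology

theorem Fin3_step {n : ℕ} (hn : 0 < n) (J : ℕ) {β m₀ η : ℝ} (hβ : 0 < β) (hm₀ : 0 < m₀)
    (hη : 0 < η) (g : ℕ → ℝ) (g0 : ∀ j, 0 ≤ g j) (hg : ∀ j, ∀ᶠ N : ℕ in atTop, g j ≤
      (∑ r, Real.exp (-((j + 1) * β * ((n : ℝ) / 2) ^ 2 / m₀ * wv N r ^ 2))) / (2 * N + 1)) :
    ∀ᶠ h : ℝ in 𝓝[>] 0, ∀ᶠ N : ℕ in atTop, ∀ m, m₀ < m → m ≤ magN n N β h →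
      m₀ / (n / 2) * ∑ j ∈ Finset.range J, g j ^ 3 - η ≤ n / 2 - m := by
  have hn' : (0 : ℝ) < n := by exact_mod_cast hn
  have c1 : Continuous fun h : ℝ => m₀ / (n / 2) *
      ∑ j ∈ Finset.range J, Real.exp (-((j + 1) * (β * h))) * g j ^ 3 := by fun_prop
  have c2 := (c1.tendsto 0).mono_left (nhdsWithin_le_nhds (s := Set.Ioi 0))
  simp only [mul_zero, neg_zero, Real.exp_zero, one_mul] at c2
  filter_upwards [self_mem_nhdsWithin, c2.eventually (lt_mem_nhds (sub_lt_self _ hη))] with h hh h2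
  have hh : 0 < h := hh
  filter_upwards [(Finset.eventually_all (Finset.range J)).2 fun j _ => hg j] with N k2 m k1 k3
  have k4 := finite_bd hn N J hβ.le hh.le hm₀ (k1.le.trans k3)
  refine h2.le.trans (le_trans ?_ (k4.trans (by linarith)))
  refine mul_le_mul_of_nonneg_left (Finset.sum_le_sum fun j hj => ?_) (by positivity)
  exact mul_le_mul_of_nonneg_left (pow_le_pow_left₀ (g0 j) (k2 j hj) 3) (Real.exp_pos _).le

theorem Fin3_core {n : ℕ} (hn : 0 < n) {ε : ℝ} (hε : 0 < ε) : ∃ β₀ : ℝ, ∀ β, β₀ ≤ β → 0 < β ∧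
    ∀ᶠ h : ℝ in 𝓝[>] 0, ∀ᶠ N : ℕ in atTop, ∀ m, m ≤ magN n N β h →
        (∑' j : ℕ, 1 / ((j : ℝ) + 1) ^ (3 / 2 : ℝ)) /
          (8 * Real.pi ^ (3 / 2 : ℝ) * ((n : ℝ) / 2) ^ (3 / 2 : ℝ)) - 2 * ε ≤
          β ^ (3 / 2 : ℝ) * ((n : ℝ) / 2 - m) := by
  have hn' : (0 : ℝ) < n := by exact_mod_cast hn
  obtain ⟨S, hS⟩ : ∃ S : ℝ, S = n / 2 := ⟨_, rfl⟩
  have S0 : 0 < S := by rw [hS]; positivity
  have sm : Summable fun j : ℕ => 1 / ((j : ℝ) + 1) ^ (3 / 2 : ℝ) := by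
    have := (summable_nat_add_iff 1).2 (Real.summable_one_div_nat_rpow.2 (show (1 : ℝ) < 3 / 2 by norm_num))
    simpa only [Nat.cast_add, Nat.cast_one] using this
  obtain ⟨D, hD⟩ : ∃ D : ℝ, D = 8 * Real.pi ^ (3 / 2 : ℝ) * ((n : ℝ) / 2) ^ (3 / 2 : ℝ) := ⟨_, rfl⟩
  have D1 : D = 8 * Real.sqrt Real.pi ^ 3 * Real.sqrt S ^ 3 := by
    rw [hD, ← hS, Fin2_pow Real.pi_pos.le, Fin2_pow S0.le]
  have sπ : 0 < Real.sqrt Real.pi := Real.sqrt_pos.2 Real.pi_pos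
  have sS : 0 < Real.sqrt S := Real.sqrt_pos.2 S0
  have D0 : 0 < D := by rw [D1]; positivity
  obtain ⟨C, hC⟩ : ∃ C : ℝ, C = (∑' j : ℕ, 1 / ((j : ℝ) + 1) ^ (3 / 2 : ℝ)) / D := ⟨_, rfl⟩
  obtain ⟨J, hJ⟩ := ((sm.hasSum.tendsto_sum_nat.div_const D).eventually
    (lt_mem_nhds (show C - ε / 2 < _ by rw [← hC]; linarith))).exists
  obtain ⟨P, hP⟩ : ∃ P : ℝ, P = (∑ j ∈ Finset.range J, 1 / ((j : ℝ) + 1) ^ (3 / 2 : ℝ)) / D :=
    ⟨_, rfl⟩
  have P0 : 0 ≤ P := hP ▸ div_nonneg (Finset.sum_nonneg fun j _ => by positivity) D0.le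
  obtain ⟨δ, hδ⟩ : ∃ δ : ℝ, δ = min (1 / 2) (ε / (14 * (P + 1))) := ⟨_, rfl⟩
  have δ0 : 0 < δ := by rw [hδ]; positivity
  have δ1 : δ ≤ 1 / 2 := hδ ▸ min_le_left _ _
  have δ2 : δ * (14 * (P + 1)) ≤ ε := (le_div_iff₀ (by positivity)).1 (hδ ▸ min_le_right _ _)
  have ρ0 : 0 < 1 - δ := by linarith
  obtain ⟨γ₀, γ0, hγ⟩ := gauss δ0
  refine ⟨max 1 (max (C / (δ * S)) (γ₀ / S)), fun β hβ => ?_⟩
  have β1 : 1 ≤ β := (le_max_left _ _).trans hβ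
  have β2 : C ≤ β * (δ * S) :=
    (div_le_iff₀ (by positivity)).1 (((le_max_left _ _).trans (le_max_right _ _)).trans hβ)
  have β3 : γ₀ ≤ β * S := (div_le_iff₀ S0).1 (((le_max_right _ _).trans (le_max_right _ _)).trans hβ)
  have β0 : 0 < β := by linarith
  rw [← hD, ← hC]
  have sβ : 0 < Real.sqrt β := Real.sqrt_pos.2 β0
  have key := Fin3_step hn J β0 (mul_pos ρ0 S0) (div_pos hε (pow_pos sβ 3)) (fun j => (1 - δ) ^ 2 /
    (2 * Real.sqrt Real.pi * Real.sqrt (j + 1) * Real.sqrt β * Real.sqrt S))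
    (fun j => by positivity) (fun j => ?_)
  · refine ⟨β0, key.mono fun h key => key.mono fun N key m hm => ?_⟩
    rcases le_or_gt m ((1 - δ) * S) with h1 | h1
    · have e1 : β ≤ β ^ (3 / 2 : ℝ) := by
        simpa using Real.rpow_le_rpow_of_exponent_le β1 (show (1 : ℝ) ≤ 3 / 2 by norm_num)
      have e2 : δ * S ≤ n / 2 - m := by rw [← hS]; linarith
      have := mul_le_mul e1 e2 (by positivity) (by positivity)
      linarith
    replace key := key m h1 hm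
    rw [← hS, mul_div_cancel_right₀ _ S0.ne'] at key
    rw [← hS, Fin2_pow β0.le]
    have e1 : Real.sqrt β ^ 3 * ((1 - δ) * ∑ j ∈ Finset.range J, ((1 - δ) ^ 2 /
        (2 * Real.sqrt Real.pi * Real.sqrt (j + 1) * Real.sqrt β * Real.sqrt S)) ^ 3) =
        (1 - δ) ^ 7 * P := by
      rw [hP, D1, Finset.sum_div, Finset.mul_sum, Finset.mul_sum, Finset.mul_sum]
      refine Finset.sum_congr rfl fun j _ => ?_
      have : 0 < Real.sqrt (j + 1) := Real.sqrt_pos.2 (by positivity)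
      rw [Fin2_pow (by positivity)]
      field_simp
      ring
    have e2 := mul_le_mul_of_nonneg_left key (pow_nonneg sβ.le 3)
    have e3 := one_add_mul_le_pow (a := -δ) (by linarith) 7
    have e4 := mul_le_mul_of_nonneg_right e3 P0
    rw [mul_sub, e1, mul_div_cancel₀ _ (pow_pos sβ 3).ne'] at e2
    rw [← hP] at hJ
    rw [← sub_eq_add_neg] at e4
    push_cast at e4
    nlinarith
  · have j1 : (1 : ℝ) ≤ j + 1 := by linarith [Nat.cast_nonneg (α := ℝ) j]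
    have e : ((j : ℝ) + 1) * β * ((n : ℝ) / 2) ^ 2 / ((1 - δ) * S) = (j + 1) * (β * S) / (1 - δ) := by
      rw [← hS]
      field_simp
    rw [e]
    refine (hγ _ ?_).mono fun N hN => le_trans ?_ hN
    · rw [le_div_iff₀ ρ0]
      nlinarith [mul_le_mul_of_nonneg_right j1 (mul_pos β0 S0).le]
    · have sj : 0 < Real.sqrt (j + 1) := Real.sqrt_pos.2 (by positivity)
      have e1 : Real.sqrt (4 * Real.pi * ((j + 1) * (β * S) / (1 - δ))) ≤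
          2 * Real.sqrt Real.pi * Real.sqrt (j + 1) * Real.sqrt β * Real.sqrt S / (1 - δ) := by
        refine Real.sqrt_le_iff.2 ⟨by positivity, ?_⟩
        rw [div_pow, mul_pow, mul_pow, mul_pow, mul_pow, Real.sq_sqrt Real.pi_pos.le,
          Real.sq_sqrt (by positivity), Real.sq_sqrt β0.le, Real.sq_sqrt S0.le, ← mul_div_assoc,
          show 2 ^ 2 * Real.pi * ((j : ℝ) + 1) * β * S = 4 * Real.pi * ((j + 1) * (β * S)) by ring]
        exact div_le_div_of_nonneg_left (by positivity) (by positivity) (by nlinarith)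
      refine le_trans (le_of_eq ?_) (div_le_div_of_nonneg_left ρ0.le
        (Real.sqrt_pos.2 (by positivity)) e1)
      field_simp

theorem bloch_free {n : ℕ} (hn : 0 < n) {ε : ℝ} (hε : 0 < ε) : ∃ β₀ : ℝ, ∀ β, β₀ ≤ β →
    (∀ᶠ h : ℝ in 𝓝[>] 0, ∀ᶠ N : ℕ in atTop,
      (∑' j : ℕ, 1 / ((j : ℝ) + 1) ^ (3 / 2 : ℝ)) /
          (8 * Real.pi ^ (3 / 2 : ℝ) * ((n : ℝ) / 2) ^ (3 / 2 : ℝ)) - ε ≤
        β ^ (3 / 2 : ℝ) * ((n : ℝ) / 2 - (press n β h N - press n β 0 N) / h)) ∧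
    ∀ p : ℝ → ℝ, (∀ h, Tendsto (press n β h) atTop (𝓝 (p h))) →
      ∀ m, HasDerivWithinAt p m (Set.Ici 0) 0 →
        (∑' j : ℕ, 1 / ((j : ℝ) + 1) ^ (3 / 2 : ℝ)) /
          (8 * Real.pi ^ (3 / 2 : ℝ) * ((n : ℝ) / 2) ^ (3 / 2 : ℝ)) - ε ≤
          β ^ (3 / 2 : ℝ) * ((n : ℝ) / 2 - m) := by
  obtain ⟨β₁, h1⟩ := Fin3_core hn (half_pos hε)
  obtain ⟨β₂, h2⟩ := bloch_sharp hn hε
  refine ⟨max β₁ β₂, fun β hβ => ⟨?_, h2 β ((le_max_right _ _).trans hβ)⟩⟩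
  obtain ⟨β0, h3⟩ := h1 β ((le_max_left _ _).trans hβ)
  filter_upwards [self_mem_nhdsWithin, h3] with h hh h4
  have hh : 0 < h := hh
  filter_upwards [h4] with N h5
  have := h5 ((press n β h N - press n β 0 N) / h) (by
    rw [div_le_iff₀ hh, mul_comm]
    exact tangent n N β0 h)
  linarith

end Vale.Agent.P361
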