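import Vale.Agent.P361.Def2

namespace Vale.Agent.P361

open Matrix NormedSpace Filter Topology

theorem Four_geom {N : ℕ} (a b : Fin (2 * N + 1)) :
    ∑ r, Complex.exp ((wv N r * ((a.val : ℝ) - b.val) : ℝ) * Complex.I) =
      if a = b then (2 * N + 1 : ℂ) else 0 := by
  split_ifs with h
  · simp [h]
  have hM : (2 * N + 1 : ℂ) ≠ 0 := by exact_mod_cast Nat.succ_ne_zero (2 * N)
  obtain ⟨m, hm⟩ : ∃ m : ℤ, m = (a.val : ℤ) - b.val := ⟨_, rfl⟩
  have hm' : ((a.val : ℂ) - b.val) = m := by rw [hm]; push_cast; rfl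
  set z := Complex.exp (m / (2 * N + 1) * (2 * Real.pi * Complex.I)) with hz
  have e : ∀ r : Fin (2 * N + 1), Complex.exp ((wv N r * ((a.val : ℝ) - b.val) : ℝ) * Complex.I) =
      z ^ r.val * Complex.exp (-(N * (m / (2 * N + 1) * (2 * Real.pi * Complex.I)))) := fun r => by
    rw [hz, ← Complex.exp_nat_mul, ← Complex.exp_add, wv]
    push_cast
    rw [hm']
    congr 1
    ring
  have h1 : z ≠ 1 := fun h1 => by
    obtain ⟨t, ht⟩ := Complex.exp_eq_one_iff.1 h1
    rw [mul_left_inj' Complex.two_pi_I_ne_zero, div_eq_iff hM] at ht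
    have h2 : m = t * (2 * N + 1) := by exact_mod_cast ht
    have := a.2
    have := b.2
    have h3 : t = 0 := by
      rcases lt_trichotomy t 0 with k | k | k
      · nlinarith
      · exact k
      · nlinarith
    rw [h3, zero_mul] at h2
    exact h (Fin.ext (by omega))
  have h2 : z ^ (2 * N + 1) = 1 := by
    rw [hz, ← Complex.exp_nat_mul]
    refine Eq.trans (congrArg _ ?_) (Complex.exp_int_mul_two_pi_mul_I m)
    push_cast
    field_simp
  simp only [e]
  rw [← Finset.sum_mul, ← Finset.sum_range fun r => z ^ r, geom_sum_eq h1, h2, sub_self, zero_div,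
    zero_mul]

theorem four (N : ℕ) : ∃ u : Box N → Bool → Box N → ℝ,
    (∀ k x, ∑ s, u k s x ^ 2 = 1 / (2 * N + 1) ^ 3) ∧
    (∀ x y, ∑ p : Box N × Bool, u p.1 p.2 x * u p.1 p.2 y = if x = y then 1 else 0) ∧
    ∀ k, ∑ s, ∑ e ∈ edges N, (u k s e.1 - u k s e.2) ^ 2 ≤ ∑ i, wv N (k i) ^ 2 := by
  obtain ⟨c, hc⟩ : ∃ c : ℝ, c ^ 2 = 1 / (2 * N + 1) ^ 3 := ⟨_, Real.sq_sqrt (by positivity)⟩
  obtain ⟨θ, hθ⟩ : ∃ θ : Box N → Box N → ℝ, ∀ k x, θ k x = ∑ i, wv N (k i) * (x i).val :=
    ⟨_, fun _ _ => rfl⟩
  refine ⟨fun k s x => c * cond s (Real.cos (θ k x)) (Real.sin (θ k x)), fun k x => ?_,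
    fun x y => ?_, fun k => ?_⟩
  · simp only [Fintype.sum_bool, cond_true, cond_false, mul_pow]
    rw [← mul_add, Real.cos_sq_add_sin_sq, mul_one, hc]
  · have e : ∀ k, ∑ s, c * cond s (Real.cos (θ k x)) (Real.sin (θ k x)) *
        (c * cond s (Real.cos (θ k y)) (Real.sin (θ k y))) = c ^ 2 * (∏ i, Complex.exp
          ((wv N (k i) * (((x i).val : ℝ) - (y i).val) : ℝ) * Complex.I)).re := fun k => by
      rw [← Complex.exp_sum, ← Finset.sum_mul, ← Complex.ofReal_sum, Complex.exp_ofReal_mul_I_re]
      simp only [mul_sub, Finset.sum_sub_distrib, ← hθ, Fintype.sum_bool, cond_true, cond_false,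
        Real.cos_sub]
      ring
    rw [Fintype.sum_prod_type]
    simp only [e]
    rw [← Finset.mul_sum, ← Complex.re_sum, ← Fintype.piFinset_univ, ← Finset.prod_univ_sum
      (fun _ => Finset.univ) fun i r => Complex.exp
        ((wv N r * (((x i).val : ℝ) - (y i).val) : ℝ) * Complex.I)]
    simp only [Four_geom]
    split_ifs with h
    · rw [hc, Finset.prod_congr rfl fun i _ => if_pos (congrFun h i), Finset.prod_const]
      norm_cast
      simp only [Finset.card_univ, Fintype.card_fin]
      push_cast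
      field_simp
    · obtain ⟨i, hi⟩ := Function.ne_iff.1 h
      rw [Finset.prod_eq_zero (Finset.mem_univ i) (if_neg hi)]
      simp
  · rw [Finset.sum_comm]
    calc _ ≤ ∑ e ∈ edges N, ∑ i, if (e.2 i).val = (e.1 i).val + 1 ∧ ∀ j, j ≠ i → e.2 j = e.1 j
          then c ^ 2 * wv N (k i) ^ 2 else 0 := Finset.sum_le_sum fun e he => by
          obtain ⟨i, hi⟩ := (Finset.mem_filter.1 he).2
          refine le_trans ?_ (Finset.single_le_sum (fun j _ => by positivity) (Finset.mem_univ i))
          have e1 : θ k e.2 - θ k e.1 = wv N (k i) := by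
            rw [hθ, hθ, ← Finset.sum_sub_distrib, Finset.sum_eq_single i
              (fun j _ hj => by rw [hi.2 j hj, sub_self]) (by simp), hi.1]
            push_cast
            ring
          have e2 := Real.one_sub_sq_div_two_le_cos (x := θ k e.2 - θ k e.1)
          rw [Real.cos_sub, e1] at e2
          simp only [if_pos hi, Fintype.sum_bool, cond_true, cond_false, ← mul_sub, mul_pow]
          rw [← mul_add]
          refine mul_le_mul_of_nonneg_left ?_ (sq_nonneg c)
          nlinarith [Real.cos_sq_add_sin_sq (θ k e.1), Real.cos_sq_add_sin_sq (θ k e.2)]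
      _ ≤ _ := by
          rw [Finset.sum_comm]
          refine Finset.sum_le_sum fun i _ => ?_
          rw [← Finset.sum_filter, Finset.sum_const, nsmul_eq_mul, ← mul_assoc]
          refine mul_le_of_le_one_left (sq_nonneg _) ?_
          have := Finset.card_le_card_of_injOn (s := (edges N).filter fun e =>
            (e.2 i).val = (e.1 i).val + 1 ∧ ∀ j, j ≠ i → e.2 j = e.1 j) (t := Finset.univ)
            Prod.fst (fun _ _ => Finset.mem_univ _) fun e he f hf h => by
              have h1 := (Finset.mem_filter.1 he).2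
              have h2 := (Finset.mem_filter.1 hf).2
              refine Prod.ext h (funext fun j => ?_)
              by_cases hj : j = i
              · rw [hj]
                exact Fin.ext (by rw [h1.1, h2.1, h])
              · rw [h1.2 j hj, h2.2 j hj, h]
          rw [Finset.card_univ, Fintype.card_fun, Fintype.card_fin, Fintype.card_fin] at this
          rw [hc, mul_one_div, div_le_one (by positivity)]
          exact_mod_cast this

end Vale.Agent.P361
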