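import Vale.Agent.P361.Gen
import Vale.Agent.P361.Bond

namespace Vale.Agent.P361

open Matrix NormedSpace Filter Topology

lemma Ham_map {ι : Type} [Fintype ι] [DecidableEq ι] (X : Matrix ι ι ℝ) :
    exp (X.map fun r : ℝ => (r : ℂ)) = (exp X).map fun r : ℝ => (r : ℂ) := by
  have hc : Continuous (Complex.ofRealHom.mapMatrix : Matrix ι ι ℝ →+* Matrix ι ι ℂ) :=
    continuous_id.matrix_map Complex.continuous_ofReal
  open scoped Matrix.Norms.Operator in
  exact (map_exp (Complex.ofRealHom.mapMatrix : Matrix ι ι ℝ →+* Matrix ι ι ℂ) hc X).symm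

lemma Ham_eq (n N : ℕ) (β h : ℝ) : -(β : ℂ) • (ham n N - (h : ℂ) • mag n N) =
    (β • LL n (edges N) + diagonal fun σ : Box N → Fin (n + 1) =>
      β * ((edges N).card * ((n : ℝ) ^ 2 / 4) + h * (Fintype.card (Box N) * n / 2)) +
        num σ * -(β * h)).map fun r : ℝ => (r : ℂ) := by
  rw [ham, mag, mag_eq, Finset.sum_congr rfl fun e he => bond_eq (irr_edges N e he)]
  ext σ τ
  simp only [LL, Matrix.smul_apply, Matrix.sub_apply, Matrix.neg_apply, Matrix.sum_apply,
    Matrix.map_apply, Matrix.add_apply, smul_eq_mul, diagonal_apply, one_apply]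
  split_ifs
  · push_cast
    simp only [Finset.sum_add_distrib, Finset.sum_const, nsmul_eq_mul]
    ring
  · simp

theorem press_eq (n N : ℕ) {β : ℝ} (hβ : 0 < β) (h : ℝ) : press n β h N =
    (edges N).card * ((n : ℝ) ^ 2 / 4) / (2 * N + 1) ^ 3 + h * n / 2 +
      Real.log (ZZ n (edges N) β (Real.exp (-(β * h)))) / (β * (2 * N + 1) ^ 3) := by
  have hc : (Fintype.card (Box N) : ℝ) = (2 * N + 1) ^ 3 := by simp
  have ht : ∀ X : Matrix (Box N → Fin (n + 1)) (Box N → Fin (n + 1)) ℝ,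
      (trace (X.map fun r : ℝ => (r : ℂ))).re = trace X := fun X => by
    simp [trace]
  rw [press, Ham_eq, Ham_map, ht, tr_diag _ fun σ τ hd => by
    rw [Matrix.smul_apply, LL_num (irr_edges N) σ τ fun e => hd (by rw [e]), smul_zero]]
  simp only [Real.exp_add _ (_ * -(β * h)), Real.exp_nat_mul, mul_assoc (Real.exp _)]
  rw [← Finset.mul_sum]
  have hz := ZZ_pos (n := n) (irr_edges N) β (Real.exp_pos (-(β * h)))
  rw [← ZZ, Real.log_mul (Real.exp_pos _).ne' hz.ne', Real.log_exp, hc]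
  field_simp

end Vale.Agent.P361
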