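import Vale.Agent.P361.Spec
import Vale.Agent.P361.Pos

namespace Vale.Agent.P361

open Matrix NormedSpace Filter Topology

section

variable {V : Type} [Fintype V] [DecidableEq V]

def k1w (e : V × V) (x : V) : ℝ := (if e.2 = x then 1 else 0) - if e.1 = x then 1 else 0

def k1D (E : Finset (V × V)) : Matrix V V ℝ := of fun x y => ∑ e ∈ E, -(k1w e x * k1w e y)

theorem k1_sum (e : V × V) (u : V → ℝ) : ∑ y, k1w e y * u y = u e.2 - u e.1 := by
  simp [k1w, sub_mul, Finset.sum_sub_distrib]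

theorem k1_mul (E : Finset (V × V)) (u : V → ℝ) (x : V) :
    (k1D E *ᵥ u) x = ∑ e ∈ E, -(k1w e x * (u e.2 - u e.1)) := by
  simp only [mulVec, dotProduct, k1D, of_apply, Finset.sum_mul]
  rw [Finset.sum_comm]
  refine Finset.sum_congr rfl fun e _ => ?_
  rw [← k1_sum, Finset.mul_sum, ← Finset.sum_neg_distrib]
  exact Finset.sum_congr rfl fun y _ => by ring

theorem k1_lap (E : Finset (V × V)) (u : V → ℝ) (x : V) : (k1D E *ᵥ u) x = lap E u x := by
  rw [k1_mul, lap]
  refine Finset.sum_congr rfl fun e _ => ?_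
  unfold k1w
  split_ifs with h1 h2 h2
  · rw [h1, h2]; ring
  · rw [h1]; ring
  · rw [h2]; ring
  · ring

theorem k1_form (E : Finset (V × V)) (u : V → ℝ) :
    u ⬝ᵥ k1D E *ᵥ u = -∑ e ∈ E, (u e.2 - u e.1) ^ 2 := by
  simp only [dotProduct, k1_mul, Finset.mul_sum]
  rw [Finset.sum_comm, ← Finset.sum_neg_distrib]
  refine Finset.sum_congr rfl fun e _ => ?_
  rw [sq, ← k1_sum e u, Finset.sum_mul, ← Finset.sum_neg_distrib, k1_sum]
  exact Finset.sum_congr rfl fun y _ => by ring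

theorem k1_ker {Q : Type} [DecidableEq Q] (E : Finset (V × V)) (b : V → Q)
    (hb : ∀ e ∈ E, b e.1 = b e.2) {κ t α γ ε : ℝ} (hκ : 0 < κ) (ht : 0 < κ * t) (hα : 0 ≤ α)
    (hγ : 0 ≤ γ) (hε : α + γ / (κ * t) ≤ ε)
    (h : ∀ (f : V → ℝ) a, f a ^ 2 ≤ α * (f ⬝ᵥ f) + γ * ∑ e ∈ E, (f e.2 - f e.1) ^ 2) :
    Ker E κ t ε b fun s x y => (exp (s • (κ • k1D E)) : Matrix V V ℝ) x y := by
  refine ⟨fun s x y hs => exp_nn (fun i j hij => ?_) hs x y, fun x => by simp, fun s x y => ?_,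
    fun x y => ?_⟩
  · refine mul_nonneg hκ.le (Finset.sum_nonneg fun e _ => ?_)
    unfold k1w
    split_ifs <;> simp_all
  · have := exp_der (κ • k1D E) s x y
    rwa [smul_mul_assoc, Matrix.smul_apply, smul_eq_mul, mul_apply', show (fun j => k1D E x j) ⬝ᵥ
      (fun j => exp (s • κ • k1D E) j y) = _ from k1_lap E _ x] at this
  · rw [smul_smul, mul_comm t]
    split_ifs with hxy
    · refine (ker_bd ?_ (fun f => ?_) hα hγ ht (fun f a => ?_) x y).trans hε
      · ext i j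
        simp only [k1D, transpose_apply, of_apply, mul_comm]
      · rw [k1_form]
        exact neg_nonpos.2 (Finset.sum_nonneg fun e _ => sq_nonneg _)
      · rw [k1_form]
        linarith [h f a]
    · refine (exp_block b (fun i j hij => Finset.sum_eq_zero fun e he => ?_) _ hxy).le
      have := hb e he
      unfold k1w
      split_ifs <;> simp_all

end

theorem k1_tel {M : ℕ} {Q : Type} [DecidableEq Q] [LinearOrder Q] {b : Fin M → Q} (hb : Monotone b)
    (φ : Fin M → ℝ) {a c : Fin M} (hac : c ≤ a) (h : b c = b a) : |φ a - φ c| ≤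
      ∑ e ∈ Finset.univ.filter fun e : Fin M × Fin M => e.2.val = e.1.val + 1 ∧ b e.1 = b e.2,
        |φ e.2 - φ e.1| := by
  obtain ⟨G, hG⟩ : ∃ G : ℕ → ℝ, ∀ x : Fin M, G x = φ x :=
    ⟨fun i => if h : i < M then φ ⟨i, h⟩ else 0, fun x => by simp⟩
  rw [← hG, ← hG, ← Finset.sum_Ico_sub G (show c.val ≤ a.val from hac),
    Finset.sum_congr rfl (g := fun e : Fin M × Fin M => |G (e.1.val + 1) - G e.1.val|) fun e he => by
      rw [← hG, ← hG, (Finset.mem_filter.1 he).2.1],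
    ← Finset.sum_image (f := fun i => |G (i + 1) - G i|) (g := fun e : Fin M × Fin M => e.1.val)]
  · refine (Finset.abs_sum_le_sum_abs _ _).trans
      (Finset.sum_le_sum_of_subset_of_nonneg (fun i hi => ?_) fun _ _ _ => abs_nonneg _)
    obtain ⟨h1, h2⟩ := Finset.mem_Ico.1 hi
    have := a.2
    refine Finset.mem_image.2 ⟨(⟨i, by omega⟩, ⟨i + 1, by omega⟩),
      Finset.mem_filter.2 ⟨Finset.mem_univ _, rfl, le_antisymm (hb (by simp)) ?_⟩, rfl⟩
    exact (hb (show _ ≤ a from h2)).trans (h.ge.trans (hb (show c ≤ _ from h1)))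
  · intro e he e' he' k
    have a1 := (Finset.mem_filter.1 he).2.1
    have a2 := (Finset.mem_filter.1 he').2.1
    simp only at k
    exact Prod.ext (Fin.ext k) (Fin.ext (by omega))

theorem k1_inj {M : ℕ} (E : Finset (Fin M × Fin M)) (p : Fin M × Fin M → Fin M)
    (hp : Set.InjOn p E) (f : Fin M → ℝ) : ∑ e ∈ E, f (p e) ^ 2 ≤ f ⬝ᵥ f := by
  rw [← Finset.sum_image (f := fun x => f x ^ 2) hp]
  simp only [dotProduct, ← sq]
  exact Finset.sum_le_sum_of_subset_of_nonneg (Finset.subset_univ _) fun _ _ _ => sq_nonneg _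

theorem ker_one {M l : ℕ} (hl : 0 < l) (hM : l ≤ M) {κ t : ℝ} (hκ : 0 < κ)
    (ht : (l : ℝ) ^ 2 ≤ κ * t) : ∃ (b : Fin M → Fin (M / l)) (q : ℝ → Fin M → Fin M → ℝ),
    (∀ j, (Finset.univ.filter fun x => b x = j).card ≤ 2 * l) ∧
    Ker (Finset.univ.filter fun e : Fin M × Fin M => e.2.val = e.1.val + 1 ∧ b e.1 = b e.2)
      κ t (3 / l) b q := by
  have h1 : 1 ≤ M / l := (Nat.one_le_div_iff hl).2 hM
  have hl' : (0 : ℝ) < l := by exact_mod_cast hl
  obtain ⟨b, hb⟩ : ∃ b : Fin M → Fin (M / l), ∀ x, (b x).val = min (x / l) (M / l - 1) :=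
    ⟨fun x => ⟨min (x / l) (M / l - 1), by omega⟩, fun _ => rfl⟩
  have hmono : Monotone b := fun x y hxy => by
    have := Nat.div_le_div_right (c := l) (show x.val ≤ y.val from hxy)
    rw [Fin.le_def, hb, hb]
    omega
  have m1 := Nat.div_add_mod M l
  have m2 := Nat.mod_lt M hl
  have hup : ∀ j, (Finset.univ.filter fun x => b x = j).card ≤ 2 * l := fun j => by
    rw [← Finset.card_image_of_injective _ Fin.val_injective]
    refine (Finset.card_le_card (t := Finset.Ico (l * j) (l * j + 2 * l)) fun i hi => ?_).trans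
      (by simp)
    obtain ⟨x, hx, rfl⟩ := Finset.mem_image.1 hi
    have e := hb x
    rw [(Finset.mem_filter.1 hx).2] at e
    have a1 := Nat.div_add_mod x l
    have a2 := Nat.mod_lt x hl
    have a3 := Nat.mul_le_mul_left l (show j.val ≤ x / l by omega)
    have a4 := x.2
    rw [Finset.mem_Ico]
    rcases (show j.val = x / l ∨ M / l = j.val + 1 by omega) with k | k
    · rw [← k] at a1
      omega
    · rw [k, mul_add] at m1
      omega
  have hlo : ∀ j, l ≤ (Finset.univ.filter fun x => b x = j).card := fun j => by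
    rw [← Finset.card_image_of_injective _ Fin.val_injective]
    refine le_trans (by simp)
      (Finset.card_le_card (s := Finset.Ico (l * j) (l * j + l)) fun i hi => ?_)
    obtain ⟨a1, a2⟩ := Finset.mem_Ico.1 hi
    have a3 := Nat.mul_le_mul_left l (show j.val + 1 ≤ M / l from j.2)
    rw [mul_add] at a3
    have a4 : i / l = j := Nat.div_eq_of_lt_le (by linarith) (by linarith)
    refine Finset.mem_image.2 ⟨⟨i, by omega⟩, Finset.mem_filter.2 ⟨Finset.mem_univ _, ?_⟩, rfl⟩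
    have := j.2
    rw [Fin.ext_iff, hb]
    simp only [a4]
    omega
  have hτ : 0 < κ * t := lt_of_lt_of_le (by positivity) ht
  refine ⟨b, _, hup, k1_ker _ b (fun e he => (Finset.mem_filter.1 he).2.2) hκ hτ (α := 2 / l)
    (γ := l) (by positivity) hl'.le ?_ fun f a => ?_⟩
  · have : (l : ℝ) / (κ * t) ≤ l / l ^ 2 := by gcongr
    refine (add_le_add_right this _).trans (le_of_eq ?_)
    field_simp
    norm_num
  obtain ⟨E, hE⟩ : ∃ E, E = Finset.univ.filter fun e : Fin M × Fin M =>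
    e.2.val = e.1.val + 1 ∧ b e.1 = b e.2 := ⟨_, rfl⟩
  have hE1 : ∀ e ∈ E, e.2.val = e.1.val + 1 := fun e he => (Finset.mem_filter.1 (hE ▸ he)).2.1
  have t1 : ∀ c, b c = b a → f a ^ 2 - ∑ e ∈ E, |f e.2 ^ 2 - f e.1 ^ 2| ≤ f c ^ 2 := by
    intro c hc
    rw [hE]
    rcases le_total c a with k | k
    · linarith [le_abs_self (f a ^ 2 - f c ^ 2), k1_tel hmono (fun x => f x ^ 2) k hc]
    · linarith [neg_abs_le (f c ^ 2 - f a ^ 2), k1_tel hmono (fun x => f x ^ 2) k hc.symm]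
  have f0 : 0 ≤ f ⬝ᵥ f := Finset.sum_nonneg fun _ _ => mul_self_nonneg _
  have t2 : l * (f a ^ 2 - ∑ e ∈ E, |f e.2 ^ 2 - f e.1 ^ 2|) ≤ f ⬝ᵥ f := by
    rcases le_total (f a ^ 2 - ∑ e ∈ E, |f e.2 ^ 2 - f e.1 ^ 2|) 0 with k | k
    · exact (mul_nonpos_of_nonneg_of_nonpos hl'.le k).trans f0
    · have a1 := Finset.card_nsmul_le_sum (Finset.univ.filter fun x => b x = b a)
        (fun x => f x ^ 2) _ fun c hc => t1 c (Finset.mem_filter.1 hc).2
      rw [nsmul_eq_mul] at a1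
      refine (mul_le_mul_of_nonneg_right (by exact_mod_cast hlo (b a)) k).trans (a1.trans ?_)
      simp only [dotProduct, ← sq]
      exact Finset.sum_le_sum_of_subset_of_nonneg (Finset.subset_univ _) fun _ _ _ => sq_nonneg _
  have t3 : l * ∑ e ∈ E, |f e.2 ^ 2 - f e.1 ^ 2| ≤ l ^ 2 * ∑ e ∈ E, (f e.2 - f e.1) ^ 2 +
      (∑ e ∈ E, f e.1 ^ 2 + ∑ e ∈ E, f e.2 ^ 2) / 2 := by
    rw [← Finset.sum_add_distrib, Finset.sum_div, Finset.mul_sum, Finset.mul_sum,
      ← Finset.sum_add_distrib]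
    refine Finset.sum_le_sum fun e _ => ?_
    rcases abs_cases (f e.2 ^ 2 - f e.1 ^ 2) with k | k <;> rw [k.1]
    · nlinarith [sq_nonneg (2 * l * (f e.2 - f e.1) - (f e.2 + f e.1)), sq_nonneg (f e.2 - f e.1)]
    · nlinarith [sq_nonneg (2 * l * (f e.2 - f e.1) + (f e.2 + f e.1)), sq_nonneg (f e.2 - f e.1)]
  have t4 := k1_inj E Prod.fst (fun e he e' he' k => Prod.ext k (Fin.ext (by
    rw [hE1 e he, hE1 e' he', k]))) f
  have t5 := k1_inj E Prod.snd (fun e he e' he' k => Prod.ext (Fin.ext (by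
    have a1 := hE1 e he
    have a2 := hE1 e' he'
    rw [k] at a1
    omega)) k) f
  rw [← hE]
  refine le_of_mul_le_mul_left ?_ hl'
  rw [mul_add, ← mul_assoc, mul_div_cancel₀ _ hl'.ne']
  nlinarith

end Vale.Agent.P361
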