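import Vale.Agent.P361.Gen

namespace Vale.Agent.P361

open Matrix NormedSpace Filter Topology

variable {V : Type} [Fintype V] [DecidableEq V] {n : ℕ}

theorem Lig_e {x y : V} (h : x ≠ y) (f : V → ℝ) :
    ∏ z ∈ Finset.univ.erase x, f z = f y * ∏ z ∈ (Finset.univ.erase x).erase y, f z :=
  (Finset.mul_prod_erase _ _ (Finset.mem_erase.2 ⟨h.symm, Finset.mem_univ _⟩)).symm

theorem Lig_p {x y : V} (h : x ≠ y) (f : V → ℝ) :
    ∏ z, f z = f x * (f y * ∏ z ∈ (Finset.univ.erase x).erase y, f z) := by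
  rw [← Lig_e h, Finset.mul_prod_erase _ _ (Finset.mem_univ _)]

theorem Lig_hop {x y : V} (h : x ≠ y) (g : V → ℕ → ℝ) (η : V → Fin (n + 1)) :
    (hop n x y *ᵥ fun τ => ∏ z, g z (τ z)) η = amp n (η x) * g x (η x - 1) *
      (amp n (η y + 1) * g y (η y + 1)) * ∏ z ∈ (Finset.univ.erase x).erase y, g z (η z) := by
  simp only [mulVec, dotProduct, hop, of_apply]
  by_cases h0 : (η x).val = 0
  · rw [Finset.sum_eq_zero fun τ _ => by rw [if_neg (by omega), zero_mul]]
    simp [h0, amp]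
  by_cases h1 : (η y).val = n
  · rw [Finset.sum_eq_zero fun τ _ => by
      rw [if_neg (by have := (τ y).isLt; omega), zero_mul]]
    simp [h1, amp]
  have hx := (η x).isLt
  have hy := (η y).isLt
  let τ0 : V → Fin (n + 1) :=
    Function.update (Function.update η x ⟨η x - 1, by omega⟩) y ⟨η y + 1, by omega⟩
  have e1 : (τ0 x).val = η x - 1 := by simp [τ0, Function.update_of_ne h]
  have e2 : (τ0 y).val = η y + 1 := by simp [τ0]
  have e3 : ∀ z, z ≠ x → z ≠ y → η z = τ0 z := fun z a b => by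
    simp [τ0, Function.update_of_ne a, Function.update_of_ne b]
  rw [Finset.sum_eq_single τ0]
  · rw [if_pos ⟨e3, by omega, e2⟩, Lig_p h, e1, e2, Finset.prod_congr rfl fun z hz => by
      rw [← e3 z (Finset.ne_of_mem_erase (Finset.mem_of_mem_erase hz)) (Finset.ne_of_mem_erase hz)]]
    ring
  · intro τ _ hτ
    rw [if_neg, zero_mul]
    rintro ⟨a, b, c⟩
    refine hτ (funext fun z => ?_)
    by_cases zx : z = x
    · subst zx; exact Fin.ext (by omega)
    by_cases zy : z = y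
    · subst zy; exact Fin.ext (by omega)
    rw [← a z zx zy, e3 z zx zy]
  · simp

theorem Lig_up {b : ℕ} (hb : b ≤ n) :
    amp n (b + 1) * √(n.choose (b + 1) : ℝ) = (n - b) * √(n.choose b : ℝ) := by
  have h1 : ((n.choose (b + 1) : ℕ) : ℝ) * (b + 1) = n.choose b * (n - b) := by
    have := Nat.choose_succ_right_eq n b
    rw [← Nat.cast_sub hb]
    exact_mod_cast this
  have h2 : (0 : ℝ) ≤ n - b := by rw [sub_nonneg]; exact_mod_cast hb
  rw [amp, ← Real.sqrt_mul' _ (Nat.cast_nonneg _), ← Real.sqrt_sq h2,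
    ← Real.sqrt_mul' _ (Nat.cast_nonneg _)]
  congr 1
  push_cast
  linear_combination (n - b : ℝ) * h1

theorem Lig_dn {a : ℕ} (ha : a ≤ n) :
    amp n a * √(n.choose (a - 1) : ℝ) = a * √(n.choose a : ℝ) := by
  rcases a with _ | b
  · simp [amp]
  have h1 : ((n.choose (b + 1) : ℕ) : ℝ) * (b + 1) = n.choose b * (n - b) := by
    have := Nat.choose_succ_right_eq n b
    rw [← Nat.cast_sub (by omega)]
    exact_mod_cast this
  rw [amp, ← Real.sqrt_mul' _ (Nat.cast_nonneg _), ← Real.sqrt_sq (Nat.cast_nonneg (b + 1)),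
    ← Real.sqrt_mul' _ (Nat.cast_nonneg _), Real.sqrt_sq (Nat.cast_nonneg (b + 1))]
  congr 1
  push_cast
  linear_combination (-(b + 1) : ℝ) * h1

theorem Lig_num (N : ℝ) (a b : ℕ) {p q : ℝ} (hp : 0 ≤ p) (hq : 0 ≤ q) :
    (a * p ^ (a - 1) * ((N - b) * q ^ (b + 1)) + b * q ^ (b - 1) * ((N - a) * p ^ (a + 1))) / 2 -
      (a * (N - b) + b * (N - a)) / 2 * (p ^ a * q ^ b) ≤
    N / 2 * (a * p ^ (a - 1) * q ^ b * (q - p) + b * q ^ (b - 1) * p ^ a * (p - q)) := by
  rcases a with _ | a <;> rcases b with _ | b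
  · simp
  · simp only [Nat.add_sub_cancel, pow_succ]
    push_cast
    exact le_of_eq (by ring)
  · simp only [Nat.add_sub_cancel, pow_succ]
    push_cast
    exact le_of_eq (by ring)
  · simp only [Nat.add_sub_cancel, pow_succ]
    push_cast
    have : 0 ≤ ((a : ℝ) + 1) * (b + 1) * (p ^ a * q ^ b) * (q - p) ^ 2 := by positivity
    linarith

theorem Lig_gen {x y : V} (h : x ≠ y) (u : V → ℝ) (h0 : ∀ z, 0 ≤ u z) (η : V → Fin (n + 1)) :
    (gen n x y *ᵥ fun τ => ∏ z, √(n.choose (τ z) : ℝ) * u z ^ (τ z).val) η ≤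
      (∏ z, √(n.choose (η z) : ℝ)) * ((n : ℝ) / 2 *
        ((∏ z ∈ Finset.univ.erase x, u z ^ (η z).val) * (η x * u x ^ ((η x).val - 1)) * (u y - u x) +
        (∏ z ∈ Finset.univ.erase y, u z ^ (η z).val) * (η y * u y ^ ((η y).val - 1)) *
          (u x - u y))) := by
  have hx : (η x).val ≤ n := Nat.lt_succ_iff.1 (η x).isLt
  have hy : (η y).val ≤ n := Nat.lt_succ_iff.1 (η y).isLt
  have e1 := Lig_hop h (fun z k => √(n.choose k : ℝ) * u z ^ k) η
  have e2 := Lig_hop h.symm (fun z k => √(n.choose k : ℝ) * u z ^ k) η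
  rw [Finset.erase_right_comm] at e2
  simp only [← mul_assoc (amp _ _), Lig_up hx, Lig_up hy, Lig_dn hx, Lig_dn hy] at e1 e2
  rw [gen, sub_mulVec, smul_mulVec, add_mulVec, Pi.sub_apply, Pi.smul_apply, Pi.add_apply,
    mulVec_diagonal, e1, e2, Lig_p h, Lig_p h, Lig_e h, Lig_e h.symm, Finset.erase_right_comm (a := y),
    Finset.prod_mul_distrib]
  have hn := Lig_num n (η x) (η y) (h0 x) (h0 y)
  have hc : 0 ≤ √(n.choose (η x) : ℝ) * √(n.choose (η y) : ℝ) *
      (∏ z ∈ (Finset.univ.erase x).erase y, √(n.choose (η z) : ℝ)) *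
      ∏ z ∈ (Finset.univ.erase x).erase y, u z ^ (η z).val :=
    mul_nonneg (by positivity) (Finset.prod_nonneg fun z _ => pow_nonneg (h0 z) _)
  have := mul_le_mul_of_nonneg_left hn hc
  rw [smul_eq_mul]
  linarith

theorem liggett {E : Finset (V × V)} (hE : Irr E) {t : ℝ} (ht : 0 ≤ t) (u : ℝ → V → ℝ)
    (h0 : ∀ s x, 0 ≤ s → 0 ≤ u s x)
    (hu : ∀ s x, HasDerivAt (fun s => u s x) ((n : ℝ) / 2 * lap E (u s) x) s)
    (σ : V → Fin (n + 1)) (h1 : ∀ x, 0 < (σ x).val → 1 ≤ u 0 x) :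
    exp (t • LL n E) σ σ ≤ ∏ x, u t x ^ (σ x).val := by
  have hc := compare (LL_off (n := n) E) ht
    (fun s τ => ∏ z, √(n.choose (τ z) : ℝ) * u s z ^ (τ z).val)
    (fun s τ => (∏ z, √(n.choose (τ z) : ℝ)) * ∑ x, (∏ z ∈ Finset.univ.erase x, u s z ^ (τ z).val) •
      (((τ x).val : ℝ) * u s x ^ ((τ x).val - 1) * ((n : ℝ) / 2 * lap E (u s) x)))
    (fun s τ => by
      simp only [Finset.prod_mul_distrib]
      exact (HasDerivAt.fun_finsetProd fun x _ => (hu s x).fun_pow _).const_mul _)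
    (fun s τ hs _ => by
      rw [LL, Matrix.sum_mulVec, Finset.sum_apply]
      refine (Finset.sum_le_sum fun e he => Lig_gen (hE e he) (u s) (fun z => h0 s z hs) τ).trans
        (le_of_eq ?_)
      rw [← Finset.mul_sum]
      congr 1
      simp only [lap, smul_eq_mul, Finset.mul_sum]
      rw [Finset.sum_comm]
      refine Finset.sum_congr rfl fun e _ => ?_
      simp only [mul_add, mul_ite, mul_zero, Finset.sum_add_distrib, Finset.sum_ite_eq,
        Finset.mem_univ, if_true]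
      ring) σ
  have hW : 0 < ∏ z, √(n.choose (σ z) : ℝ) := Finset.prod_pos fun z _ => Real.sqrt_pos.2 (by
    exact_mod_cast Nat.choose_pos (Nat.lt_succ_iff.1 (σ z).isLt))
  have hn := exp_nn (LL_off (n := n) E) ht σ
  have h2 := Finset.single_le_sum (f := fun τ => exp (t • LL n E) σ τ *
    ∏ z, √(n.choose (τ z) : ℝ) * u 0 z ^ (τ z).val) (fun τ _ => mul_nonneg (hn τ)
      (Finset.prod_nonneg fun z _ => mul_nonneg (Real.sqrt_nonneg _)
        (pow_nonneg (h0 0 z le_rfl) _))) (Finset.mem_univ σ)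
  have h3 := h2.trans hc
  have h4 : 1 ≤ ∏ z, u 0 z ^ (σ z).val := by
    refine Finset.prod_induction _ (fun r : ℝ => 1 ≤ r) (fun a b => one_le_mul_of_one_le_of_one_le)
      le_rfl fun z _ => ?_
    rcases Nat.eq_zero_or_pos (σ z).val with e | e
    · rw [e, pow_zero]
    · exact one_le_pow₀ (h1 z e)
  simp only [Finset.prod_mul_distrib] at h3
  refine le_of_mul_le_mul_left (le_trans ?_ h3) hW
  rw [mul_comm]
  exact mul_le_mul_of_nonneg_left (le_mul_of_one_le_right hW.le h4) (hn σ)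

end Vale.Agent.P361
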