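import Vale.Agent.P361.Defs

namespace Vale.Agent.P361

open Matrix NormedSpace Filter Topology

variable {ι κ : Type} [Fintype ι] [DecidableEq ι] [Fintype κ] [DecidableEq κ]

theorem spec {X : Matrix ι ι ℝ} (hX : X.IsSymm) : ∃ (U : Matrix ι ι ℝ) (l : ι → ℝ),
    Uᵀ * U = 1 ∧ U * Uᵀ = 1 ∧ X = U * diagonal l * Uᵀ ∧
      ∀ t : ℝ, exp (t • X) = U * diagonal (fun i => Real.exp (t * l i)) * Uᵀ := by
  have hH : X.IsHermitian := by
    rw [IsHermitian, conjTranspose_eq_transpose_of_trivial]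
    exact hX
  obtain ⟨U, hU⟩ : ∃ U : Matrix ι ι ℝ, U = hH.eigenvectorUnitary := ⟨_, rfl⟩
  have h1 : Uᵀ * U = 1 := by
    rw [← conjTranspose_eq_transpose_of_trivial, hU]
    exact hH.eigenvectorUnitary.2.1
  have h2 : U * Uᵀ = 1 := by
    rw [← conjTranspose_eq_transpose_of_trivial, hU]
    exact hH.eigenvectorUnitary.2.2
  have h3 : X = U * diagonal hH.eigenvalues * Uᵀ := by
    rw [← conjTranspose_eq_transpose_of_trivial, hU]
    exact hH.spectral_theorem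
  refine ⟨U, hH.eigenvalues, h1, h2, h3, fun t => ?_⟩
  have h4 : U⁻¹ = Uᵀ := inv_eq_left_inv h1
  have h5 : IsUnit U := ⟨⟨U, Uᵀ, h2, h1⟩, rfl⟩
  have h6 : t • X = U * diagonal (fun i => t * hH.eigenvalues i) * U⁻¹ := by
    rw [h4]
    conv_lhs => rw [h3]
    rw [← Matrix.smul_mul, ← Matrix.mul_smul, ← diagonal_smul]
    rfl
  rw [h6, Matrix.exp_conj _ _ h5, Matrix.exp_diagonal, h4]
  congr 3
  funext i
  rw [Pi.coe_exp, Real.exp_eq_exp_ℝ]

theorem Spec_form (U : Matrix ι ι ℝ) (l f g : ι → ℝ) :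
    f ⬝ᵥ (U * diagonal l * Uᵀ) *ᵥ g = ∑ i, l i * ((Uᵀ *ᵥ f) i * (Uᵀ *ᵥ g) i) := by
  rw [← mulVec_mulVec, ← mulVec_mulVec, dotProduct_mulVec, ← mulVec_transpose, dotProduct]
  refine Finset.sum_congr rfl fun i _ => ?_
  rw [mulVec_diagonal]
  ring

theorem Spec_norm {U : Matrix ι ι ℝ} (h : U * Uᵀ = 1) (f g : ι → ℝ) :
    f ⬝ᵥ g = ∑ i, (Uᵀ *ᵥ f) i * (Uᵀ *ᵥ g) i := by
  have := Spec_form U (fun _ => 1) f g
  simpa [h] using this

theorem Spec_tr {U : Matrix ι ι ℝ} (h : Uᵀ * U = 1) (l : ι → ℝ) :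
    trace (U * diagonal l * Uᵀ) = ∑ i, l i := by
  rw [trace_mul_comm, ← Matrix.mul_assoc, h, Matrix.one_mul, trace_diagonal]

theorem Spec_bessel (c : κ → ι → ℝ) (h : ∀ a b, c a ⬝ᵥ c b = if a = b then 1 else 0) (i : ι) :
    ∑ a, c a i ^ 2 ≤ 1 := by
  let w : ι → ℝ := fun j => ∑ a, c a i * c a j
  have e1 : w i = ∑ a, c a i ^ 2 := Finset.sum_congr rfl fun a _ => (sq _).symm
  have e2 : ∑ j, w j ^ 2 = ∑ a, c a i ^ 2 := by
    have : ∀ j, w j ^ 2 = ∑ a, ∑ b, c a i * c b i * (c a j * c b j) := fun j => by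
      rw [sq, Finset.sum_mul_sum]
      exact Finset.sum_congr rfl fun a _ => Finset.sum_congr rfl fun b _ => by ring
    simp only [this]
    rw [Finset.sum_comm]
    refine Finset.sum_congr rfl fun a _ => ?_
    rw [Finset.sum_comm]
    have : ∀ b, ∑ j, c a i * c b i * (c a j * c b j) = if a = b then c a i ^ 2 else 0 := fun b => by
      rw [← Finset.mul_sum, show ∑ j, c a j * c b j = _ from h a b]
      split_ifs with hab
      · rw [hab]; ring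
      · ring
    simp [this]
  have e3 : w i ^ 2 ≤ ∑ j, w j ^ 2 :=
    Finset.single_le_sum (f := fun j => w j ^ 2) (fun _ _ => sq_nonneg _) (Finset.mem_univ i)
  rw [e2, e1] at e3
  nlinarith

theorem peierls {X : Matrix ι ι ℝ} (hX : X.IsSymm) (φ : κ → ι → ℝ)
    (h : ∀ a b, φ a ⬝ᵥ φ b = if a = b then 1 else 0) :
    ∑ a, Real.exp (φ a ⬝ᵥ X *ᵥ φ a) ≤ trace (exp X) := by
  obtain ⟨U, l, h1, h2, h3, h4⟩ := spec hX
  have h5 := h4 1
  simp only [one_smul, one_mul] at h5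
  rw [h5, Spec_tr h1]
  let c : κ → ι → ℝ := fun a => Uᵀ *ᵥ φ a
  have hc : ∀ a b, c a ⬝ᵥ c b = if a = b then 1 else 0 := fun a b =>
    (Spec_norm h2 _ _).symm.trans (h a b)
  have j : ∀ a, Real.exp (φ a ⬝ᵥ X *ᵥ φ a) ≤ ∑ i, c a i ^ 2 * Real.exp (l i) := fun a => by
    have e : φ a ⬝ᵥ X *ᵥ φ a = ∑ i, c a i ^ 2 • l i := by
      rw [h3, Spec_form]
      exact Finset.sum_congr rfl fun i _ => by simp only [c, smul_eq_mul]; ring
    rw [e]
    refine convexOn_exp.map_sum_le (fun _ _ => sq_nonneg _) ?_ fun _ _ => Set.mem_univ _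
    simpa [dotProduct, sq] using hc a a
  refine (Finset.sum_le_sum fun a _ => j a).trans ?_
  rw [Finset.sum_comm]
  refine Finset.sum_le_sum fun i _ => ?_
  rw [← Finset.sum_mul]
  exact mul_le_of_le_one_left (Real.exp_pos _).le (Spec_bessel c hc i)

theorem tr_mono {X Y : Matrix ι ι ℝ} (hX : X.IsSymm) (hY : Y.IsSymm)
    (h : ∀ f, f ⬝ᵥ X *ᵥ f ≤ f ⬝ᵥ Y *ᵥ f) : trace (exp X) ≤ trace (exp Y) := by
  obtain ⟨U, l, h1, h2, h3, h4⟩ := spec hX
  have h5 := h4 1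
  simp only [one_smul, one_mul] at h5
  have hc : ∀ a i, (Uᵀ *ᵥ Uᵀ a) i = if i = a then 1 else 0 := fun a i => by
    rw [← one_apply, ← h1]
    rfl
  refine le_trans ?_ (peierls hY (fun a => Uᵀ a) fun a b => ?_)
  · rw [h5, Spec_tr h1]
    refine Finset.sum_le_sum fun a _ => Real.exp_le_exp.2 (le_trans (le_of_eq ?_) (h _))
    rw [h3, Spec_form]
    simp [hc]
  · rw [← one_apply, ← h1]
    rfl

theorem peierls_disj {X : Matrix ι ι ℝ} (hX : X.IsSymm) (φ : κ → ι → ℝ) (c : κ → ℝ)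
    (h0 : ∀ a, φ a ≠ 0) (hd : ∀ a b, a ≠ b → ∀ i, φ a i * φ b i = 0)
    (hc : ∀ a, c a * (φ a ⬝ᵥ φ a) ≤ φ a ⬝ᵥ X *ᵥ φ a) :
    ∑ a, Real.exp (c a) ≤ trace (exp X) := by
  have p : ∀ a, 0 < φ a ⬝ᵥ φ a := fun a =>
    lt_of_le_of_ne (Finset.sum_nonneg fun i _ => mul_self_nonneg _)
      fun h => h0 a (dotProduct_self_eq_zero.1 h.symm)
  have s : ∀ a, (Real.sqrt (φ a ⬝ᵥ φ a))⁻¹ * (Real.sqrt (φ a ⬝ᵥ φ a))⁻¹ = (φ a ⬝ᵥ φ a)⁻¹ :=
    fun a => by rw [← mul_inv, Real.mul_self_sqrt (p a).le]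
  refine le_trans ?_ (peierls hX (fun a => (Real.sqrt (φ a ⬝ᵥ φ a))⁻¹ • φ a) fun a b => ?_)
  · refine Finset.sum_le_sum fun a _ => Real.exp_le_exp.2 ?_
    rw [mulVec_smul, smul_dotProduct, dotProduct_smul, smul_eq_mul, smul_eq_mul, ← mul_assoc, s,
      ← div_eq_inv_mul, le_div_iff₀ (p a)]
    exact hc a
  · rw [smul_dotProduct, dotProduct_smul, smul_eq_mul, smul_eq_mul, ← mul_assoc]
    split_ifs with h
    · subst h
      rw [s, inv_mul_cancel₀ (p a).ne']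
    · rw [show φ a ⬝ᵥ φ b = 0 from Finset.sum_eq_zero fun i _ => hd a b h i, mul_zero]

theorem ker_bd {X : Matrix ι ι ℝ} (hX : X.IsSymm) (h0 : ∀ f, f ⬝ᵥ X *ᵥ f ≤ 0) {α γ τ : ℝ}
    (hα : 0 ≤ α) (hγ : 0 ≤ γ) (hτ : 0 < τ)
    (h : ∀ (f : ι → ℝ) a, f a ^ 2 ≤ α * (f ⬝ᵥ f) - γ * (f ⬝ᵥ X *ᵥ f)) (a b : ι) :
    exp (τ • X) a b ≤ α + γ / τ := by
  obtain ⟨U, l, h1, h2, h3, h4⟩ := spec hX
  have hc : ∀ a i, (Uᵀ *ᵥ Uᵀ a) i = if i = a then 1 else 0 := fun a i => by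
    rw [← one_apply, ← h1]
    rfl
  have l0 : ∀ i, l i ≤ 0 := fun i => by
    have := h0 (Uᵀ i)
    rw [h3, Spec_form] at this
    simpa [hc] using this
  have K0 : 0 ≤ α + γ / τ := by positivity
  have col : ∀ b i, (Uᵀ *ᵥ fun x => exp (τ • X) x b) i = Real.exp (τ * l i) * U b i := fun b i => by
    have : (Uᵀ * exp (τ • X)) i b = Real.exp (τ * l i) * U b i := by
      rw [h4, ← Matrix.mul_assoc, ← Matrix.mul_assoc, h1, Matrix.one_mul, diagonal_mul,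
        transpose_apply]
    rw [← this]
    rfl
  have dg : ∀ b, exp (τ • X) b b = ∑ i, Real.exp (τ * l i) * U b i ^ 2 := fun b => by
    rw [h4, mul_apply]
    exact Finset.sum_congr rfl fun i _ => by rw [mul_diagonal, transpose_apply]; ring
  have key : ∀ a b, exp (τ • X) a b ^ 2 ≤ (α + γ / τ) * exp (τ • X) b b := fun a b => by
    refine (h (fun x => exp (τ • X) x b) a).trans ?_
    rw [Spec_norm h2, dg]
    conv_lhs => rw [show ∀ f : ι → ℝ, f ⬝ᵥ X *ᵥ f = f ⬝ᵥ (U * diagonal l * Uᵀ) *ᵥ f from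
      fun f => by rw [← h3]]
    rw [Spec_form]
    simp only [col, Finset.mul_sum, ← Finset.sum_sub_distrib]
    refine Finset.sum_le_sum fun i _ => ?_
    have e1 : Real.exp (τ * l i) ≤ 1 := Real.exp_le_one_iff.2 (mul_nonpos_of_nonneg_of_nonpos hτ.le (l0 i))
    have e2 : -l i * Real.exp (τ * l i) ≤ 1 / τ := by
      rw [le_div_iff₀ hτ]
      have := Real.add_one_le_exp (-(τ * l i))
      have e := mul_le_mul_of_nonneg_right this (Real.exp_pos (τ * l i)).le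
      rw [← Real.exp_add, neg_add_cancel, Real.exp_zero] at e
      nlinarith [Real.exp_pos (τ * l i)]
    have e3 : α * Real.exp (τ * l i) + γ * (-l i * Real.exp (τ * l i)) ≤ α + γ / τ := by
      rw [div_eq_mul_one_div γ]
      exact add_le_add (mul_le_of_le_one_right hα e1) (mul_le_mul_of_nonneg_left e2 hγ)
    have e4 := mul_le_mul_of_nonneg_right e3
      (mul_nonneg (Real.exp_pos (τ * l i)).le (sq_nonneg (U b i)))
    nlinarith
  have d0 : 0 ≤ exp (τ • X) b b := dg b ▸ Finset.sum_nonneg fun i _ => by positivity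
  have d1 : exp (τ • X) b b ≤ α + γ / τ := by
    rcases d0.eq_or_lt with e | e
    · rw [← e]; exact K0
    · have := key b b
      rw [sq] at this
      exact le_of_mul_le_mul_right this e
  refine (abs_le_of_sq_le_sq' ?_ K0).2
  exact (key a b).trans (by rw [sq]; exact mul_le_mul_of_nonneg_left d1 K0)

end Vale.Agent.P361
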