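import Mathlib

/-! The quantum Heisenberg ferromagnet on boxes of the cubic lattice. -/

namespace Vale.Agent.P361

open Matrix

/-- the raising matrix `S⁺` of spin `S = n / 2`, in the basis where `S³ e_i = (S - i) e_i` -/
noncomputable def sp (n : ℕ) : Matrix (Fin (n + 1)) (Fin (n + 1)) ℂ :=
  of fun i j => if j.val = i.val + 1 then (Real.sqrt (j.val * ((n : ℝ) + 1 - j.val)) : ℂ) else 0

/-- the standard spin matrices `S¹, S², S³` of spin `S = n / 2` -/
noncomputable def spin (n : ℕ) : Fin 3 → Matrix (Fin (n + 1)) (Fin (n + 1)) ℂ :=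
  ![(1 / 2 : ℂ) • (sp n + (sp n)ᴴ), (1 / (2 * Complex.I)) • (sp n - (sp n)ᴴ),
    diagonal fun i => (n : ℂ) / 2 - i.val]

/-- the matrix `A` acting on the tensor factor at the site `x` -/
def site {V F : Type} [Fintype V] [DecidableEq V] [DecidableEq F] (x : V) (A : Matrix F F ℂ) :
    Matrix (V → F) (V → F) ℂ :=
  of fun σ τ => if ∀ y, y ≠ x → σ y = τ y then A (σ x) (τ x) else 0

/-- the box `{-N, …, N}³`, translated to `{0, …, 2 N}³` -/
abbrev Box (N : ℕ) : Type := Fin 3 → Fin (2 * N + 1)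

/-- nearest neighbour edges of the box, each listed once -/
def edges (N : ℕ) : Finset (Box N × Box N) :=
  Finset.univ.filter fun e => ∃ i, (e.2 i).val = (e.1 i).val + 1 ∧ ∀ j, j ≠ i → e.2 j = e.1 j

/-- the Hamiltonian `H_N` -/
noncomputable def ham (n N : ℕ) : Matrix (Box N → Fin (n + 1)) (Box N → Fin (n + 1)) ℂ :=
  -∑ e ∈ edges N, ∑ a, site e.1 (spin n a) * site e.2 (spin n a)

/-- the magnetization `M_N` -/
noncomputable def mag (n N : ℕ) : Matrix (Box N → Fin (n + 1)) (Box N → Fin (n + 1)) ℂ :=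
  ∑ x, site x (spin n 2)

/-- the finite volume pressure -/
noncomputable def press (n : ℕ) (β h : ℝ) (N : ℕ) : ℝ :=
  Real.log (trace (NormedSpace.exp (-(β : ℂ) • (ham n N - (h : ℂ) • mag n N)))).re /
    (β * Fintype.card (Box N))

end Vale.Agent.P361
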