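import Vale.Agent.P361.Dle
import Vale.Agent.P361.Four

namespace Vale.Agent.P361

open Matrix NormedSpace Filter Topology

theorem Sum_geo (y : ℝ) (J : ℕ) : (Real.exp y - 1) *
    ∑ j ∈ Finset.range J, Real.exp (-((j + 1) * y)) = 1 - Real.exp (-(J * y)) := by
  induction J with
  | zero => simp
  | succ J ih =>
    rw [Finset.sum_range_succ, mul_add, ih, sub_mul, ← Real.exp_add]
    push_cast
    rw [show y + -(((J : ℝ) + 1) * y) = -(J * y) by ring]
    ring

theorem Sum_key {a c y : ℝ} (hc : 0 < c) (hy : 0 ≤ y) (h : a + c ≤ a * Real.exp y) (J : ℕ) :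
    c * ∑ j ∈ Finset.range J, Real.exp (-((j + 1) * y)) ≤ a := by
  have e1 : 1 ≤ Real.exp y := Real.one_le_exp hy
  have a0 : 0 ≤ a := by
    by_contra hn
    nlinarith [mul_nonneg (neg_nonneg.2 (not_le.1 hn).le) (sub_nonneg.2 e1)]
  have g0 : 0 ≤ ∑ j ∈ Finset.range J, Real.exp (-((j + 1) * y)) :=
    Finset.sum_nonneg fun j _ => (Real.exp_pos _).le
  have e2 : c ≤ a * (Real.exp y - 1) := by linarith
  refine (mul_le_mul_of_nonneg_right e2 g0).trans ?_
  rw [mul_assoc, Sum_geo]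
  nlinarith [mul_nonneg a0 (Real.exp_pos (-(J * y))).le]

theorem Sum_ccr {V : Type} [Fintype V] [DecidableEq V] {n : ℕ}
    (X : Matrix (V → Fin (n + 1)) (V → Fin (n + 1)) ℝ) (u : V → ℝ) :
    TT X ((AA n u)ᵀ * AA n u) - TT X (AA n u * (AA n u)ᵀ) =
      ∑ x, 2 * u x ^ 2 * TT X (zed n x) := by
  unfold TT
  rw [← trace_sub, ← Matrix.mul_sub, AA_ccr, Finset.mul_sum, trace_sum]
  refine Finset.sum_congr rfl fun x _ => ?_
  rw [Matrix.mul_smul, trace_smul, smul_eq_mul]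

theorem finite_bd {n : ℕ} (hn : 0 < n) (N J : ℕ) {β h m : ℝ} (hβ : 0 ≤ β) (hh : 0 ≤ h) (hm : 0 < m)
    (h1 : m ≤ magN n N β h) :
    m / (n / 2) * ∑ j ∈ Finset.range J, Real.exp (-((j + 1) * (β * h))) *
      ((∑ r, Real.exp (-((j + 1) * β * ((n : ℝ) / 2) ^ 2 / m * wv N r ^ 2))) / (2 * N + 1)) ^ 3 ≤
      n / 2 - magN n N β h := by
  obtain ⟨u, u1, u2, u3⟩ := four N
  set X := XX n (edges N) β (-(β * h)) with hX
  have hs : X.IsSymm := XX_symm _ _ _
  have Z0 : 0 < TT X 1 := TT_one_pos hs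
  set Z := TT X 1 with hZ
  set g := magN n N β h with hg
  have M0 : (0 : ℝ) < 2 * N + 1 := by positivity
  have M3 : (0 : ℝ) < (2 * N + 1) ^ 3 := by positivity
  have n0 : (0 : ℝ) < n := by exact_mod_cast hn
  have g0 : 0 < g := hm.trans_le h1
  have hz : ∑ x, TT X (zed n x) = g * ((2 * N + 1) ^ 3 * Z) := by
    rw [hg, magN, ← hX, ← hZ, div_mul_cancel₀ _ (mul_pos M3 Z0).ne']
  let y : Box N → ℝ := fun k => β * ((n : ℝ) / 2) ^ 2 / m * ∑ i, wv N (k i) ^ 2 + β * h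
  have key : ∀ k : Box N, 2 * g * Z * ∑ j ∈ Finset.range J, Real.exp (-((j + 1) * y k)) ≤
      ∑ s, TT X (AA n (u k s) * (AA n (u k s))ᵀ) := by
    intro k
    have w0 : 0 ≤ ∑ i, wv N (k i) ^ 2 := Finset.sum_nonneg fun i _ => sq_nonneg _
    have d : ∑ s, TT X ((AA n (u k s))ᵀ * AA n (u k s)) -
        ∑ s, TT X (AA n (u k s) * (AA n (u k s))ᵀ) = 2 * g * Z := by
      rw [← Finset.sum_sub_distrib, Finset.sum_congr rfl fun s _ => Sum_ccr X (u k s),
        Finset.sum_comm]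
      have : ∀ x, ∑ s, 2 * u k s x ^ 2 * TT X (zed n x) =
          2 / (2 * N + 1) ^ 3 * TT X (zed n x) := by
        intro x
        rw [← Finset.sum_mul, ← Finset.mul_sum, u1]
        ring
      rw [Finset.sum_congr rfl fun x _ => this x, ← Finset.mul_sum, hz]
      field_simp
    have c0 : 0 < 2 * g * Z := by positivity
    have e := eeb hs (fun s => AA n (u k s)) (y := y k) (by linarith) (by
      refine (Finset.sum_le_sum fun s _ => dc_le (irr_edges N) hβ (-(β * h)) (u k s)).trans ?_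
      rw [Finset.sum_sub_distrib, ← Finset.mul_sum, ← Finset.sum_mul, ← Finset.mul_sum,
        Finset.sum_sub_distrib, ← hX, ← hZ, d]
      have t1 : β * ((n : ℝ) ^ 2 / 2) * (∑ s, ∑ e ∈ edges N, (u k s e.1 - u k s e.2) ^ 2) * Z ≤
          β * ((n : ℝ) ^ 2 / 2) * (∑ i, wv N (k i) ^ 2) * Z :=
        mul_le_mul_of_nonneg_right (mul_le_mul_of_nonneg_left (u3 k) (by positivity)) Z0.le
      have t2 : β * ((n : ℝ) ^ 2 / 2) * (∑ i, wv N (k i) ^ 2) * Z * 1 ≤
          β * ((n : ℝ) ^ 2 / 2) * (∑ i, wv N (k i) ^ 2) * Z * (g / m) :=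
        mul_le_mul_of_nonneg_left ((one_le_div hm).2 h1) (by positivity)
      have t3 : 2 * g * Z * y k =
          β * ((n : ℝ) ^ 2 / 2) * (∑ i, wv N (k i) ^ 2) * Z * (g / m) + β * h * (2 * g * Z) := by
        simp only [y]
        ring
      rw [t3]
      linarith)
    exact Sum_key c0 (by positivity) (by linarith) J
  have sr := sum_rule (n := n) (E := edges N) β (-(β * h)) (fun p : Box N × Bool => u p.1 p.2) u2
  rw [Fintype.sum_prod_type, ← hX, ← hZ, hz] at sr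
  have cd : (Fintype.card (Box N) : ℝ) = (2 * N + 1) ^ 3 := by
    simp [Box]
  rw [cd] at sr
  have tot := (Finset.sum_le_sum fun k (_ : k ∈ Finset.univ) => key k).trans sr
  rw [← Finset.mul_sum, Finset.sum_comm] at tot
  have e : ∀ j : ℕ, ∑ k : Box N, Real.exp (-((j + 1) * y k)) = (2 * N + 1) ^ 3 *
      (Real.exp (-((j + 1) * (β * h))) *
      ((∑ r, Real.exp (-((j + 1) * β * ((n : ℝ) / 2) ^ 2 / m * wv N r ^ 2))) / (2 * N + 1)) ^ 3) := by
    intro j
    have e1 : (∑ r, Real.exp (-((j + 1) * β * ((n : ℝ) / 2) ^ 2 / m * wv N r ^ 2))) ^ 3 =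
        ∑ k : Box N, ∏ i, Real.exp (-((j + 1) * β * ((n : ℝ) / 2) ^ 2 / m * wv N (k i) ^ 2)) := by
      rw [← Fintype.piFinset_univ, ← Finset.prod_univ_sum (fun _ : Fin 3 => Finset.univ)
        (fun _ r => Real.exp (-((j + 1) * β * ((n : ℝ) / 2) ^ 2 / m * wv N r ^ 2))),
        Finset.prod_const, Finset.card_univ, Fintype.card_fin]
    rw [div_pow, e1, mul_div_assoc', mul_div_cancel₀ _ M3.ne', Finset.mul_sum]
    refine Finset.sum_congr rfl fun k _ => ?_
    rw [← Real.exp_sum, ← Real.exp_add]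
    congr 1
    simp only [y, Fin.sum_univ_three]
    ring
  rw [Finset.sum_congr rfl fun j _ => e j, ← Finset.mul_sum] at tot
  set S := ∑ j ∈ Finset.range J, Real.exp (-((j + 1) * (β * h))) *
      ((∑ r, Real.exp (-((j + 1) * β * ((n : ℝ) / 2) ^ 2 / m * wv N r ^ 2))) / (2 * N + 1)) ^ 3
    with hS
  have S0 : 0 ≤ S := Finset.sum_nonneg fun j _ => by positivity
  have f1 : (2 * g * S) * ((2 * N + 1) ^ 3 * Z) ≤ (n * (n / 2 - g)) * ((2 * N + 1) ^ 3 * Z) := by
    linarith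
  have f2 := le_of_mul_le_mul_right f1 (mul_pos M3 Z0)
  have f3 := mul_le_mul_of_nonneg_right h1 S0
  rw [div_mul_eq_mul_div, div_le_iff₀ (by positivity)]
  linarith

end Vale.Agent.P361
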